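import Crest.Agent.N218.Hf.Rp

/-!
# Row 218, block D3, leaf HOPF (helper39): Hopf invariant one gives an odd `ψ³`-defect
-/

set_option autoImplicit false
set_option linter.unusedVariables false
set_option linter.unusedSectionVars false

open scoped unitInterval Topology
open Set Function

noncomputable section

namespace Crest.Agent.N218.Hf

open Crest.Agent.R204 H472 Ex837 ExM515 HMain515
open K357 (K0 psi psi_map psi_comm psi_two)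

/-- transport of a collapse map -/
def collMap {N Y Y' : Type} [TopologicalSpace Y] [TopologicalSpace Y'] {y : Y}
    (c : Collapse N Y y) (h : C(Y, Y')) (hb : Bijective h) : Collapse N Y' (h y) where
  p := h.comp c.p
  surj := hb.2.comp c.surj
  fib x z e := c.fib x z (hb.1 e)
  bd x := ⟨fun e => (c.bd x).1 (hb.1 e), fun e => congrArg h ((c.bd x).2 e)⟩

/-- abstract data of a projective plane -/
structure HD (D T Y : Type) [TopologicalSpace D] [TopologicalSpace T] [TopologicalSpace Y]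
    (y : Y) where
  SD : Set D
  cSD : IsClosed SD
  e : D
  he : e ∈ SD
  C : C(I × D, D)
  C0 : ∀ x, C (0, x) = x
  C1 : ∀ x, C (1, x) = e
  κ : C(D, Y)
  κs : Surjective κ
  κy : ∀ x, κ x = y ↔ x ∈ SD
  κf : ∀ x z, κ x = κ z → x = z ∨ (x ∈ SD ∧ z ∈ SD)
  Q : C(D × D, T)
  Qs : Surjective Q
  S : Set T
  Bm : Set T
  Bp : Set T
  cm : IsClosed Bm
  cp : IsClosed Bp
  hS : S = Bm ∪ Bp
  QS : ∀ p, Q p ∈ S → p ∈ smashSet SD SD
  Qf : ∀ p q, Q p = Q q → p = q ∨ (p ∈ smashSet SD SD ∧ q ∈ smashSet SD SD)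
  Qm : ∀ x ∈ SD, ∀ z, Q (x, z) ∈ Bm
  Qp : ∀ x, ∀ z ∈ SD, Q (x, z) ∈ Bp
  i1 : Injective fun x => Q (x, e)
  r1 : ∀ z ∈ Bp, ∃ x, Q (x, e) = z
  m1 : ∀ x, Q (x, e) ∈ Bm → x ∈ SD
  i2 : Injective fun x => Q (e, x)
  r2 : ∀ z ∈ Bm, ∃ x, Q (e, x) = z
  m2 : ∀ x, Q (e, x) ∈ Bp → x ∈ SD
  j : C(Y, T)
  ji : Injective j
  jr : range j = S

instance fact2 : Fact (Nat.Prime 2) := ⟨Nat.prime_two⟩
instance fact3' : Fact (Nat.Prime 3) := ⟨Nat.prime_three⟩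

/-- inclusion of a subset -/
abbrev vl {T : Type} [TopologicalSpace T] (A : Set T) : C(A, T) :=
  ⟨Subtype.val, continuous_subtype_val⟩

theorem KIn_gn {Y : Type} [TopologicalSpace Y] [CompactSpace Y] {y : Y} {a : ℕ} (K : KIn a y) :
    Gn (kv y) K.b := ⟨K.hb, K.gen, K.free⟩

namespace HD
variable {D T Y : Type} [TopologicalSpace D] [TopologicalSpace T] [TopologicalSpace Y]
  [CompactSpace D] [T2Space D] [CompactSpace T] [T2Space T] [CompactSpace Y] [T2Space Y]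
  {y : Y} (h : HD D T Y y)

theorem cS : IsClosed h.S := h.hS ▸ h.cm.union h.cp

theorem cbd : IsClosed (smashSet h.SD h.SD) :=
  (h.cSD.preimage continuous_fst).union (h.cSD.preimage continuous_snd)

theorem QS' : MapsTo h.Q (smashSet h.SD h.SD) h.S := by
  rintro ⟨x, z⟩ (hx | hz)
  · exact h.hS ▸ Or.inl (h.Qm x hx z)
  · exact h.hS ▸ Or.inr (h.Qp x z hz)

include h in
theorem kv_Y (y' : Y) (x : KC C(Y, ℂ)) : kv y' x = kv y x := by
  obtain ⟨d, rfl⟩ := h.κs y'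
  have := kv_path (⟨fun t => h.κ (h.C (t, d)), by fun_prop⟩ : C(I, Y)) x
  simp only [ContinuousMap.coe_mk, h.C0, h.C1, (h.κy h.e).2 h.he] at this
  exact this

theorem kp_D {X : Type} [TopologicalSpace X] (g : C(D, X)) {x : KC C(X, ℂ)}
    (hx : kv (g h.e) x = 0) : kp g x = 0 := by
  rw [kp_ht (g.comp h.C) g (.const D (g h.e)) (fun d => congrArg g (h.C0 d))
    (fun d => congrArg g (h.C1 d)), kp_const _ (g h.e) (fun _ => rfl), hx, map_zero]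

/-- the sphere at infinity -/
def jS : C(Y, h.S) := ⟨fun a => ⟨h.j a, h.jr ▸ mem_range_self a⟩, by fun_prop⟩

theorem jS_bij : Bijective h.jS :=
  ⟨fun a b e => h.ji (congrArg Subtype.val e), fun ⟨z, hz⟩ => by
    obtain ⟨a, rfl⟩ : z ∈ range h.j := h.jr ▸ hz
    exact ⟨a, rfl⟩⟩

theorem κm : MapsTo h.κ h.SD {y} := fun x hx => (h.κy x).2 hx

theorem κ_bij : Bijective (kc h.κ h.κm) :=
  kc_bij _ _ isClosed_singleton h.he (fun z => .inr (h.κs z)) (fun x hx => (h.κy x).1 hx) h.κf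

theorem κκ_bij : Bijective (kc (h.κ.prodMap h.κ) (mapsTo_sm h.κm h.κm)) := by
  refine kc_bij _ _ ((isClosed_singleton.preimage continuous_fst).union
    (isClosed_singleton.preimage continuous_snd)) (a := (h.e, h.e)) (Or.inl h.he)
    (fun z => .inr ((h.κs.prodMap h.κs) z))
    (fun x hx => hx.imp (fun hx => (h.κy _).1 hx) fun hx => (h.κy _).1 hx) fun x z e => ?_
  rcases h.κf _ _ (congrArg Prod.fst e) with h1 | ⟨h1, h1'⟩
  · rcases h.κf _ _ (congrArg Prod.snd e) with h2 | ⟨h2, h2'⟩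
    · exact .inl (Prod.ext h1 h2)
    · exact .inr ⟨.inr h2, .inr h2'⟩
  · exact .inr ⟨.inl h1, .inl h1'⟩

/-- the K-theory of the disc modulo its boundary -/
theorem disc {a : ℕ} (K : KIn a y) : ∃ g : KC (CR D h.SD), Gn (ke h.SD h.e) g ∧
    pC 2 h.SD g = (2 : ℤ) ^ a • g ∧ pC 3 h.SD g = (3 : ℤ) ^ a • g ∧
    Gn (ke (smashSet h.SD h.SD) (h.e, h.e)) (ex h.he h.he g g) := by
  obtain ⟨b, hb⟩ := (ki_bij y).2 K.b
  have hy : y ∈ ({y} : Set Y) := rfl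
  have g0 : Gn (ke {y} y) b :=
    Gn.of_map (ki {y}).toAddMonoidHom (ki_bij y) (fun x => kv_ki y x) (hb ▸ KIn_gn K)
  have he : h.κ h.e = y := (h.κy _).2 h.he
  refine ⟨kc h.κ h.κm b, g0.map (kc h.κ h.κm).toAddMonoidHom h.κ_bij
    (fun x => (ke_kc _ _ _ x).trans (by rw [he])), ?_, ?_, ?_⟩
  · rw [psi_kc, ← map_zsmul]
    congr 1
    apply (ki_bij y).1
    rw [← psi_ki, map_zsmul, hb]; exact K.psi2
  · rw [psi_kc, ← map_zsmul]
    congr 1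
    apply (ki_bij y).1
    rw [← psi_ki, map_zsmul, hb]; exact K.psi3
  · rw [← ex_nat hy hy h.he h.he _ h.κm _ h.κm g0.1 g0.1]
    refine Gn.map (ε := ke (smashSet {y} {y}) (y, y)) ?_
      (kc (h.κ.prodMap h.κ) (mapsTo_sm h.κm h.κm)).toAddMonoidHom h.κκ_bij
      (fun x => (ke_kc _ _ _ x).trans (by
        change ke _ (h.κ h.e, h.κ h.e) x = _
        rw [he]))
    have h1 := ex_ki hy hy g0.1 g0.1
    rw [hb] at h1
    have e : ex hy hy b b = (smC y y).ext K.b K.b :=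
      (smC y y).eq_ext (x := K.b) (y := K.b) K.hb K.hb (s := ex hy hy b b) h1
        (ex_ke hy hy g0.1 g0.1)
    rw [e]
    exact ⟨(smC y y).ev_ext (x := K.b) (y := K.b) K.hb K.hb, K.sgen, K.sfree⟩

theorem exists_xi (hbd : ∀ x : KC C(smashSet h.SD h.SD, ℂ), (∀ p, kv p x = 0) → x = 0)
    {b : KC C(h.S, ℂ)} (hb : ∀ z, kv z b = 0) :
    ∃ ξ : KC C(T, ℂ), (∀ t, kv t ξ = 0) ∧ kp (vl h.S) ξ = b := by
  let H : C(smashSet h.SD h.SD, h.S) := ⟨fun p => ⟨h.Q p, h.QS' p.2⟩, by fun_prop⟩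
  have hq : Topology.IsQuotientMap h.Q :=
    (h.Q.continuous.isClosedMap).isQuotientMap h.Q.continuous h.Qs
  let W : Sq C(T, ℂ) C(D × D, ℂ) C(h.S, ℂ) C(smashSet h.SD h.SD, ℂ) :=
    { p1 := (ContinuousMap.compRightAlgHom ℂ ℂ h.Q).toRingHom
      p2 := (ContinuousMap.compRightAlgHom ℂ ℂ (vl h.S)).toRingHom
      al := (ContinuousMap.compRightAlgHom ℂ ℂ (vl _)).toRingHom
      be := (ContinuousMap.compRightAlgHom ℂ ℂ H).toRingHom
      comm := fun _ => rfl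
      lift := fun a b e => by
        have e' : ∀ p (hp : p ∈ smashSet h.SD h.SD), a p = b ⟨h.Q p, h.QS' hp⟩ := fun p hp =>
          congrArg (fun c : C(smashSet h.SD h.SD, ℂ) => c ⟨p, hp⟩) e
        have hF : FactorsThrough a h.Q := fun p q hpq => by
          rcases h.Qf p q hpq with rfl | ⟨h1, h2⟩
          · rfl
          · rw [e' p h1, e' q h2]; exact congrArg b (Subtype.ext hpq)
        have hb : ∀ w, hq.lift a hF (h.Q w) = a w := fun w =>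
          congrArg (fun c : C(D × D, ℂ) => c w) (hq.lift_comp a hF)
        refine ⟨hq.lift a hF, ContinuousMap.ext hb, ContinuousMap.ext ?_⟩
        rintro ⟨z, hz⟩
        obtain ⟨p, rfl⟩ := h.Qs z
        exact (hb p).trans (e' p (h.QS p hz))
      inj := fun u v e _ => ContinuousMap.ext fun z => by
        obtain ⟨p, rfl⟩ := h.Qs z
        exact congrArg (fun c : C(D × D, ℂ) => c p) e }
  have h0 : kp H b = 0 := hbd _ fun p => (kv_kp H p b).trans (hb _)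
  obtain ⟨ξ, h1, h2⟩ := W.K0_mid (rst_surjective h.cbd) (a := 0) (b := b)
    ((map_zero _).trans h0.symm)
  refine ⟨ξ, fun t => ?_, h2⟩
  obtain ⟨p, rfl⟩ := h.Qs t
  have h1' : kp h.Q ξ = 0 := h1
  rw [← kv_kp, h1', map_zero]

/-- lifting to the pair `(T, B)` -/
theorem half {B B' : Set T} (cB : IsClosed B) (hS : h.S = B ∪ B') (ι ι' : C(D, T))
    (i1 : Injective ι) (r1 : ∀ z ∈ B', ∃ x, ι x = z) (s1 : ∀ x, ι x ∈ B')
    (m1 : ∀ x, ι x ∈ B → x ∈ h.SD) (m2 : MapsTo ι h.SD B)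
    (i2 : Injective ι') (r2 : ∀ z ∈ B, ∃ x, ι' x = z) (s2 : ∀ x, ι' x ∈ B)
    {g : KC (CR D h.SD)} (hg : Gn (ke h.SD h.e) g) {ξ : KC C(T, ℂ)} (hξ : ∀ t, kv t ξ = 0)
    (hb : ∀ z, Gn (kv z) (kp (vl h.S) ξ)) :
    ∃ x : KC (CR T B), ki B x = ξ ∧ ke B (ι h.e) x = 0 ∧ Gn (ke h.SD h.e) (kc ι m2 x) := by
  let k : C(D, B) := ⟨fun x => ⟨ι' x, s2 x⟩, by fun_prop⟩
  have hk : Bijective k := ⟨fun a b e => i2 (congrArg Subtype.val e), fun ⟨z, hz⟩ => by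
    obtain ⟨x, rfl⟩ := r2 z hz
    exact ⟨x, rfl⟩⟩
  have h0 : kp (vl B) ξ = 0 := (kp_bij k hk).1 (by
    rw [kp_kp k (vl B) ι' (fun _ => rfl), map_zero]
    exact h.kp_D ι' (hξ _))
  obtain ⟨x, hx, hx0⟩ := rel_of cB (m2 h.he) h0
  refine ⟨x, hx, hx0, ?_⟩
  have : CompactSpace h.S := isCompact_iff_compactSpace.1 h.cS.isCompact
  let l : C(D, h.S) := ⟨fun x => ⟨ι x, hS ▸ Or.inr (s1 x)⟩, by fun_prop⟩
  have hl : MapsTo l h.SD (Subtype.val ⁻¹' B) := fun x hx => m2 hx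
  have hv : MapsTo (vl h.S) (Subtype.val ⁻¹' B) B := fun x hx => hx
  have lb : Bijective (kc l hl) := by
    refine kc_bij l hl (cB.preimage continuous_subtype_val) h.he ?_ (fun x hx => m1 x hx)
      fun x z e => .inl (i1 (congrArg Subtype.val e))
    rintro ⟨z, hz⟩
    rcases hS ▸ hz with hz' | hz'
    · exact .inl hz'
    · obtain ⟨x, rfl⟩ := r1 z hz'
      exact .inr ⟨x, rfl⟩
  have el : ∀ x, ke h.SD h.e (kc l hl x) = ke (Subtype.val ⁻¹' B) (l h.e) x :=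
    fun x => ke_kc _ _ _ x
  obtain ⟨g', rfl⟩ := lb.2 g
  have hg' : Gn (ke (Subtype.val ⁻¹' B) (l h.e)) g' :=
    Gn.of_map (kc l hl).toAddMonoidHom lb el hg
  rw [← kc_kc l hl (vl h.S) hv ι m2 (fun _ => rfl)]
  refine Gn.map ?_ (kc l hl).toAddMonoidHom lb el
  refine hg'.of_to (hb (l h.e)) (ki _).toAddMonoidHom (fun x => kv_ki _ x)
    ((ke_kc _ _ _ x).trans hx0) ?_
  change ki _ (kc (vl h.S) hv x) = _
  rw [ki_kc, hx]

theorem Q_bij : Bijective (kc h.Q h.QS') :=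
  kc_bij _ _ h.cS (a := (h.e, h.e)) (Or.inl h.he) (fun z => .inr (h.Qs z)) h.QS h.Qf

/-- the square of the Thom class -/
theorem square {a : ℕ} (K : KIn a y) {ξ : KC C(T, ℂ)} (hξ : ∀ t, kv t ξ = 0)
    (hb : ∀ z, Gn (kv z) (kp (vl h.S) ξ)) :
    ∃ η : KC (CR T h.S), Gn (ke h.S (h.Q (h.e, h.e))) η ∧ ki h.S η = ξ * ξ ∧
      pC 2 h.S η = ((2 : ℤ) ^ a * 2 ^ a) • η ∧ pC 3 h.S η = ((3 : ℤ) ^ a * 3 ^ a) • η := by
  obtain ⟨g, hg, p2, p3, hgg⟩ := h.disc K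
  let ι : C(D, T) := ⟨fun x => h.Q (x, h.e), by fun_prop⟩
  let ι' : C(D, T) := ⟨fun x => h.Q (h.e, x), by fun_prop⟩
  have mι : MapsTo ι h.SD h.Bm := fun x hx => h.Qm x hx _
  have mι' : MapsTo ι' h.SD h.Bp := fun x hx => h.Qp _ x hx
  obtain ⟨u, hu, u0, gu⟩ := h.half h.cm h.hS ι ι' h.i1 h.r1 (fun x => h.Qp x _ h.he) h.m1 mι
    h.i2 h.r2 (fun x => h.Qm _ h.he x) hg hξ hb
  obtain ⟨v, hv, v0, gv⟩ := h.half h.cp (h.hS.trans (union_comm _ _)) ι' ι h.i2 h.r2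
    (fun x => h.Qm _ h.he x) h.m2 mι' h.i1 h.r1 (fun x => h.Qp x _ h.he) hg hξ hb
  let Δ : C(T, T × T) := ⟨fun t => (t, t), by fun_prop⟩
  have hΔ : MapsTo Δ h.S (smashSet h.Bm h.Bp) := fun t ht => by
    rw [h.hS] at ht; exact ht
  obtain ⟨k, hk, ek⟩ := hg.sign gu
  obtain ⟨l, hl, el⟩ := hg.sign gv
  have key : kc h.Q h.QS' (kc Δ hΔ (ex (mι h.he) (mι' h.he) u v)) =
      (k * l) • ex h.he h.he g g := by
    rw [kc_kc h.Q h.QS' Δ hΔ (Δ.comp h.Q) (hΔ.comp h.QS') (fun _ => rfl),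
      kc_ht (⟨fun p => (h.Q (p.2.1, h.C (p.1, p.2.2)), h.Q (h.C (p.1, p.2.1), p.2.2)),
        by fun_prop⟩ : C(I × (D × D), T × T))
        (fun t p hp => hp.imp (fun hp => h.Qm _ hp _) fun hp => h.Qp _ _ hp)
        (Δ.comp h.Q) (hΔ.comp h.QS') (ι.prodMap ι') (mapsTo_sm mι mι')
        (fun p => by simp only [ContinuousMap.coe_mk, h.C0]; rfl)
        (fun p => by simp only [ContinuousMap.coe_mk, h.C1]; rfl),
      ex_nat (mι h.he) (mι' h.he) h.he h.he ι mι ι' mι' u0 v0, ek, el,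
      ex_smul h.he h.he hg.1 hg.1]
  refine ⟨kc Δ hΔ (ex (mι h.he) (mι' h.he) u v), ?_, ?_, ?_, ?_⟩
  · refine Gn.of_map (δ := ke (smashSet h.SD h.SD) (h.e, h.e)) (kc h.Q h.QS').toAddMonoidHom
      h.Q_bij (fun x => ke_kc _ _ _ x) ?_
    refine hgg.unit ?_ key (hk.mul hl)
    change ke _ _ (kc h.Q h.QS' _) = 0
    rw [key, map_zsmul, hgg.1, smul_zero]
  · rw [ki_kc, ex_ki _ _ u0 v0, map_mul, hu, hv, kp_kp Δ _ (.id T) (fun _ => rfl),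
      kp_kp Δ _ (.id T) (fun _ => rfl), kp_id _ (fun _ => rfl)]
  · apply h.Q_bij.1
    rw [← psi_kc, map_zsmul, key, map_zsmul, ex_psi _ _ _ hg.1 hg.1, p2,
      ex_smul _ _ hg.1 hg.1, smul_comm]
  · apply h.Q_bij.1
    rw [← psi_kc, map_zsmul, key, map_zsmul, ex_psi _ _ _ hg.1 hg.1, p3,
      ex_smul _ _ hg.1 hg.1, smul_comm]

end HD

/-- the algebra -/
theorem alg {R : Type} [CommRing R] (p2 p3 : R →+* R) (ξ : R) (ν μ n k : ℤ) (y : R)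
    (ind : ∀ n k : ℤ, n • ξ + k • (ξ * ξ) = 0 → k = 0)
    (h2 : p2 ξ = (2 : ℤ) ^ 4 • ξ + ν • (ξ * ξ)) (h3 : p3 ξ = (3 : ℤ) ^ 4 • ξ + μ • (ξ * ξ))
    (s2 : p2 (ξ * ξ) = ((2 : ℤ) ^ 4 * 2 ^ 4) • (ξ * ξ))
    (s3 : p3 (ξ * ξ) = ((3 : ℤ) ^ 4 * 3 ^ 4) • (ξ * ξ))
    (hc : p2 (p3 ξ) = p3 (p2 ξ)) (hy : p2 ξ = ξ ^ 2 + 2 * y) (ey : y = n • ξ + k • (ξ * ξ)) :
    Odd μ := by
  have e1 : ν - 1 - 2 * k = 0 := ind (16 - 2 * n) _ (by
    rw [ey, h2] at hy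
    simp only [zsmul_eq_mul] at hy ⊢
    push_cast at hy ⊢
    linear_combination hy)
  have e2 : 81 * ν + 256 * μ - 16 * μ - 6561 * ν = 0 := ind 0 _ (by
    rw [h3, h2, map_add, map_add, map_zsmul, map_zsmul, map_zsmul, map_zsmul, h2, h3, s2, s3] at hc
    simp only [zsmul_eq_mul] at hc ⊢
    push_cast at hc ⊢
    linear_combination hc)
  exact ⟨27 * k + 13, by omega⟩

theorem alg2 {R S : Type} [CommRing R] [CommRing S] (ε : R →+* S) (p : S →+* S) {ξ w x : R}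
    (h0 : ε ξ = 0) (h1 : p (ε ξ) = ε x) (hw : x = ξ ^ 2 + 2 * w) : 2 * ε w = 0 := by
  rw [hw, map_add, map_pow, map_mul, h0, map_zero, map_ofNat] at h1
  linear_combination -h1

theorem pX_comm (T : Type) [TopologicalSpace T] (x : KC C(T, ℂ)) :
    pX 2 T (pX 3 T x) = pX 3 T (pX 2 T x) :=
  psi_comm (p := 2) (q := 3) (A := C(T, ℂ)) (by norm_num) x

theorem e81 : (3 : ℤ) ^ 4 = 81 := by norm_num

namespace HD
variable {D T Y : Type} [TopologicalSpace D] [TopologicalSpace T] [TopologicalSpace Y]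
  [CompactSpace D] [T2Space D] [CompactSpace T] [T2Space T] [CompactSpace Y] [T2Space Y]
  {y : Y} (h : HD D T Y y)

/-- **the `ψ³`-defect is odd** -/
theorem core (c : Collapse (Fin (2 * 4)) Y y)
    (hbd : ∀ x : KC C(smashSet h.SD h.SD, ℂ), (∀ p, kv p x = 0) → x = 0)
    {b : KC C(Y, ℂ)} (hb : Gn (kv y) b) :
    ∃ (ξ : KC C(T, ℂ)) (η : KC (CR T h.S)) (μ : ℤ), Odd μ ∧ kp h.j ξ = b ∧ (∀ t, kv t ξ = 0) ∧
      Gn (ke h.S (h.j y)) η ∧ pX 3 T ξ = (81 : ℤ) • ξ + μ • ki h.S η := by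
  have K : KIn 4 y := Bt837.kIn (by norm_num) c
  have : CompactSpace h.S := isCompact_iff_compactSpace.1 h.cS.isCompact
  have k1 : K1Triv C(h.S, ℂ) :=
    BottK369.k1Triv_even (a := 4) (by norm_num) (collMap c h.jS h.jS_bij)
  have jb := kp_bij h.jS h.jS_bij
  obtain ⟨b', rfl⟩ := jb.2 b
  have gb : ∀ z, Gn (kv z) b' := fun z => by
    obtain ⟨a, rfl⟩ := h.jS_bij.2 z
    exact Gn.of_map (kp h.jS).toAddMonoidHom jb
      (fun x => (h.kv_Y a _).symm.trans (kv_kp _ a x)) hb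
  obtain ⟨ξ, hξ, rfl⟩ := h.exists_xi hbd fun z => (gb z).1
  obtain ⟨η, gη, hη, q2, q3⟩ := h.square K hξ gb
  have hq : h.Q (h.e, h.e) ∈ h.S := h.QS' (Or.inl h.he)
  have hj : h.j y ∈ h.S := (h.jS y).2
  have r0 : kp (vl h.S) (ξ * ξ) = 0 := by
    rw [← hη, kp_ki _ (fun x => x.2) hq, gη.1, map_zero]
  have dec : ∀ (x : KC C(T, ℂ)) (n : ℤ), kp (vl h.S) x = n • kp (vl h.S) ξ →
      ∃ k : ℤ, x = n • ξ + k • (ξ * ξ) := fun x n e => by
    obtain ⟨z, hz, z0⟩ := rel_of h.cS hq (x := x - n • ξ)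
      (by rw [map_sub, map_zsmul]; exact sub_eq_zero.2 e)
    obtain ⟨k, rfl⟩ := gη.2.1 z z0
    exact ⟨k, by rw [← hη, ← map_zsmul, hz]; abel⟩
  have ind : ∀ n k : ℤ, n • ξ + k • (ξ * ξ) = 0 → k = 0 := fun n k e => by
    have e1 := congrArg (kp (vl h.S)) e
    rw [map_add, map_zsmul, map_zsmul, r0, smul_zero, add_zero, map_zero] at e1
    rw [(gb ⟨_, hq⟩).2.2 n e1, zero_smul, zero_add, ← hη, ← map_zsmul] at e
    exact gη.2.2 k (ki_inj h.cS k1 hq e)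
  obtain ⟨k, -, ek⟩ := (KIn_gn K).sign hb
  have s2 : pX 2 Y K.b = (2 : ℤ) ^ 4 • K.b := K.psi2
  have s3 : pX 3 Y K.b = (3 : ℤ) ^ 4 • K.b := K.psi3
  obtain ⟨ν, h2⟩ := dec (pX 2 T ξ) (2 ^ 4) (jb.1 (by
    rw [← psi_kp, ← psi_kp, map_zsmul, ek, map_zsmul, s2, smul_comm]))
  obtain ⟨μ, h3⟩ := dec (pX 3 T ξ) (3 ^ 4) (jb.1 (by
    rw [← psi_kp, ← psi_kp, map_zsmul, ek, map_zsmul, s3, smul_comm]))
  obtain ⟨w, hw⟩ : ∃ w, pX 2 T ξ = ξ ^ 2 + 2 * w := psi_two ξ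
  have w0 : kv (h.Q (h.e, h.e)) w = 0 :=
    K0_field_two _ (alg2 _ (psi 2 ℂ) (hξ _) (psi_kv 2 _ ξ) hw)
  obtain ⟨n, hn⟩ := (gb ⟨_, hq⟩).2.1 (kp (vl h.S) w) ((kv_kp _ _ w).trans w0)
  obtain ⟨l, hl⟩ := dec w n hn
  have hc := pX_comm T ξ
  have t2 : ∀ m : ℤ, pC 2 h.S η = m • η → pX 2 T (ξ * ξ) = m • (ξ * ξ) := fun m q => by
    rw [← hη, psi_ki, q, map_zsmul]
  have t3 : ∀ m : ℤ, pC 3 h.S η = m • η → pX 3 T (ξ * ξ) = m • (ξ * ξ) := fun m q => by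
    rw [← hη, psi_ki, q, map_zsmul]
  have od : Odd μ := alg (pX 2 T) (pX 3 T) ξ ν μ n l w ind h2 h3 (t2 _ q2) (t3 _ q3) hc hw hl
  refine ⟨ξ, η, μ, od, (kp_kp h.jS (vl h.S) h.j (fun _ => rfl) ξ).symm, hξ,
    gη.congr fun x => ke_eq hj hq x, ?_⟩
  rw [h3, hη, e81]

end HD

end Crest.Agent.N218.Hf
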