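import Crest.Agent.N218.Hf.Core
import Crest.Agent.N218.K.Defs

/-!
# Row 218, block D3, leaf HOPF (helper39): from a model of the mapping cone to `Ecl`
-/

set_option autoImplicit false
set_option linter.unusedVariables false
set_option linter.unusedSectionVars false

open scoped unitInterval Topology
open Set Function

noncomputable section

namespace Crest.Agent.N218.Hf

open Crest.Agent.R204 H472 Ex837 ExM515 HMain515
open K (Ex H1 SD Cn Ecl pull KA)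

variable {X : Type} [TopologicalSpace X] {A B S : Ex X}

theorem pull_kp {U V : Type} [TopologicalSpace U] [TopologicalSpace V] (g : C(U, V))
    (x : KC C(V, ℂ)) : pull g x = kp g x := rfl

theorem rd_iff {x0 : X} (hX : ∀ x, x = x0) (x : KC C(A.E, ℂ)) :
    A.Rd x ↔ kv (A.s x0) x = 0 := by
  have e : pull A.s x = kk X (kv (A.s x0) x) :=
    kp_const A.s _ (fun y => by rw [hX y]) x
  refine ⟨fun h => ?_, fun h => ?_⟩
  · have h2 : kp A.s x = 0 := h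
    rw [← kv_kp, h2, map_zero]
  · change pull A.s x = 0
    rw [e, h, map_zero]

theorem int_mul {R : Type} [CommRing R] (r : ℤ) (x : R) : (r : R) * x = r • x := by
  rw [zsmul_eq_mul]

theorem KA_KA {R₁ R₂ R₃ : Type} [CommRing R₁] [CommRing R₂] [CommRing R₃] [Algebra ℂ R₁]
    [Algebra ℂ R₂] [Algebra ℂ R₃] (φ : R₁ →ₐ[ℂ] R₂) (ψ : R₂ →ₐ[ℂ] R₃) (χ : R₁ →ₐ[ℂ] R₃)
    (h : ∀ a, ψ (φ a) = χ a) (x : KC R₁) : KA ψ (KA φ x) = KA χ x :=
  KM_comp (φ : R₁ →+* R₂) (ψ : R₂ →+* R₃) (χ : R₁ →+* R₃) h x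

theorem KA_sq {R₁ R₂ R₃ R₄ R₅ : Type} [CommRing R₁] [CommRing R₂] [CommRing R₃] [CommRing R₄]
    [CommRing R₅] [Algebra ℂ R₂] [Algebra ℂ R₄] [Algebra ℂ R₅] (φ : R₁ →+* R₂) (θ : R₂ →ₐ[ℂ] R₅)
    (Ψ : R₁ →+* R₃) (v : R₃ →+* R₄) (i : R₄ →ₐ[ℂ] R₅) (h : ∀ a, θ (φ a) = i (v (Ψ a)))
    (x : KC R₁) : KA θ (KM φ x) = KA i (KM v (KM Ψ x)) := by
  rw [KM_comp Ψ v (v.comp Ψ) (fun _ => rfl)]
  exact KM_eq φ (θ : R₂ →+* R₅) (v.comp Ψ) (i : R₄ →+* R₅) h x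

theorem ps_KA {R₁ R₂ : Type} [CommRing R₁] [CommRing R₂] [Algebra ℂ R₁] [Algebra ℂ R₂]
    (φ : R₁ →ₐ[ℂ] R₂) (x : KC R₁) : K.ps R₂ (KA φ x) = KA φ (K.ps R₁ x) := K357.psi_map φ x

theorem pX_ps (U : Type) [TopologicalSpace U] (x : KC C(U, ℂ)) : pX 3 U x = K.ps C(U, ℂ) x := rfl

theorem ecl_of (F : H1 A B) (D : SD A S) {x0 : X} (hX : ∀ x, x = x0)
    {T : Type} [TopologicalSpace T] [CompactSpace T] [T2Space T] {Z : Set T} (hZ : IsClosed Z)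
    (G : C(A.E × I, T)) (j : C(B.E, T)) (G0 : ∀ e, G (e, 0) = j (F.f e))
    (G1 : ∀ e, G (e, 1) = j (B.s x0)) (Gs : ∀ t, G (A.s x0, t) = j (B.s x0))
    (jZ : ∀ b, j b ∈ Z) (hs : ∀ y, y ∈ Z ∨ y ∈ range G) (hA : ∀ z, G z ∈ Z → A.Bd z)
    (hf : ∀ z z', G z = G z' → z = z' ∨ (A.Bd z ∧ A.Bd z'))
    {ξ : KC C(T, ℂ)} {η : KC (CR T Z)} (hη : Gn (ke Z (j (B.s x0))) η) {r μ : ℤ}
    (h : pX 3 T ξ = r • ξ + μ • ki Z η) :
    ∃ t, Gn (kv (S.s x0)) t ∧ Ecl F D (pull j ξ) (r : K.KX X) (μ • t) := by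
  have mG : MapsTo G {z | A.Bd z} Z := by
    rintro ⟨e, t⟩ (k | k | k)
    · obtain rfl : t = 0 := k
      rw [G0]; exact jZ _
    · obtain rfl : t = 1 := k
      rw [G1]; exact jZ _
    · have k' : e = A.s x0 := k.trans (by rw [hX (A.p _)])
      rw [k', Gs]; exact jZ _
  have mc : MapsTo D.c {z | A.Bd z} {S.s x0} := fun z hz => (D.bd z hz).trans (by rw [hX (A.p _)])
  have a0 : (A.s x0, (0 : I)) ∈ {z | A.Bd z} := .inl rfl
  have bc := comap_bij D.c mc isClosed_singleton a0 (fun y => .inr (D.surj y))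
    (fun z hz => by
      rcases D.inj z _ (hz.trans (mc a0).symm) with k | k
      · rw [k]; exact a0
      · exact k.1) D.inj
  have bG := kc_bij G mG hZ a0 hs hA hf
  let ε := RingEquiv.ofBijective (CR.comap D.c mc).toRingHom bc
  let Ψ : CR T Z →+* CR S.E {S.s x0} := ε.symm.toRingHom.comp (CR.comap G mG).toRingHom
  have hΨ : ∀ u z, (Ψ u).1 (D.c z) = u.1 (G z) := fun u z =>
    congrArg (fun v : CR (A.E × I) {z | A.Bd z} => v.1 z) (ε.apply_symm_apply (CR.comap G mG u))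
  have e1 : kc D.c mc (KM Ψ η) = kc G mG η :=
    KM_comp _ _ _ (by exact fun u => ε.apply_symm_apply (CR.comap G mG u)) η
  have g1 : Gn (ke {z | A.Bd z} (A.s x0, 0)) (kc G mG η) :=
    hη.map (kc G mG).toAddMonoidHom bG fun x => (ke_kc G mG _ x).trans (by rw [Gs])
  have g2 : Gn (ke {S.s x0} (S.s x0)) (KM Ψ η) :=
    Gn.of_map (kc D.c mc).toAddMonoidHom (KM_bij _ bc)
      (fun x => (ke_kc D.c mc (A.s x0, 0) x).trans (by rw [mc a0])) (e1.symm ▸ g1)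
  have g3 : Gn (kv (S.s x0)) (ki {S.s x0} (KM Ψ η)) :=
    g2.map (ki {S.s x0}).toAddMonoidHom (ki_bij _) fun x => kv_ki _ x
  obtain ⟨θ, hθ⟩ : ∃ θ : C(T, ℂ) →ₐ[ℂ] Cn F, ∀ a, (θ a).1 = (a.comp G, a.comp j) :=
    ⟨((ContinuousMap.compRightAlgHom ℂ ℂ G).prod
      (ContinuousMap.compRightAlgHom ℂ ℂ j)).codRestrict (Cn F) fun a =>
        ⟨fun e => congrArg a (G0 e), fun e => congrArg a ((G1 e).trans (by rw [hX (A.p _)])),
        fun x t => congrArg a (by rw [hX x, Gs])⟩, fun _ => rfl⟩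
  have e4 : KA (A := Cn F) (B := C(B.E, ℂ)) (Cn.res F) (KA (A := C(T, ℂ)) (B := Cn F) θ ξ) = pull j ξ := by
    have k : ∀ a, Cn.res F (θ a) = ContinuousMap.compRightAlgHom ℂ ℂ j a :=
      fun a => congrArg Prod.snd (hθ a)
    exact KA_KA (R₁ := C(T, ℂ)) (R₂ := Cn F) (R₃ := C(B.E, ℂ)) _ _ _ k ξ
  have e2 : K.ps _ (KA (A := C(T, ℂ)) (B := Cn F) θ ξ) = KA (A := C(T, ℂ)) (B := Cn F) θ (pX 3 T ξ) := by
    rw [pX_ps]
    have := ps_KA (R₁ := C(T, ℂ)) (R₂ := Cn F) θ ξ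
    exact this
  have e3 : KA (A := C(T, ℂ)) (B := Cn F) θ (ki Z η) = KA (A := C(S.E, ℂ)) (B := Cn F) (Cn.inc F D) (ki {S.s x0} (KM Ψ η)) := by
    have k : ∀ u : CR T Z, θ ((CR T Z).val.toRingHom u) =
        Cn.inc F D ((CR S.E {S.s x0}).val.toRingHom (Ψ u)) := fun u => by
      refine Subtype.ext ((hθ _).trans (Prod.ext
        (ContinuousMap.ext fun z => (hΨ u z).symm) (ContinuousMap.ext fun b => ?_)))
      change u.1 (j b) = (Ψ u).1 (S.s (B.p b))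
      have k2 := hΨ u (A.s x0, 0)
      rw [mc a0] at k2
      rw [hX (B.p b), k2]
      exact u.2 _ (jZ b) _ (mG a0)
    have := KA_sq (R₁ := CR T Z) (R₂ := C(T, ℂ)) (R₃ := CR S.E {S.s x0}) (R₄ := C(S.E, ℂ))
      (R₅ := Cn F) _ θ Ψ _ (Cn.inc F D) k η
    exact this
  refine ⟨_, g3, (rd_iff hX _).2 (by rw [map_zsmul, g3.1, smul_zero]), KA (A := C(T, ℂ)) (B := Cn F) θ ξ, e4, ?_⟩
  rw [e2, h, map_add, map_zsmul, map_zsmul, map_zsmul, map_intCast, int_mul, e3,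
    add_sub_cancel_left]

end Crest.Agent.N218.Hf
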