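import Crest.Agent.N218.Hf.T

/-!
# Row 218, block D3, leaf HOPF (helper39): the projective plane is a reduced mapping cone
-/

set_option autoImplicit false
set_option linter.unusedVariables false
set_option linter.unusedSectionVars false

open scoped unitInterval Topology
open Set Function OnePoint Metric Filter Module

noncomputable section

namespace Crest.Agent.N218.Hf

open Crest.Agent.R204 H472 Ex837 ExM515 HMain515

theorem cont_ext {V T : Type} [TopologicalSpace V] [T2Space V] [TopologicalSpace T]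
    {f : V × I → T} (hf : Continuous f) (t0 : T)
    (h : ∀ U ∈ 𝓝 t0, ∃ K, IsCompact K ∧ ∀ w ∉ K, ∀ t, f (w, t) ∈ U) :
    Continuous fun z : OnePoint V × I =>
      (OnePoint.rec t0 (fun w => f (w, z.2)) z.1 : T) := by
  rw [continuous_iff_continuousAt]
  rintro ⟨w, t⟩
  induction w using OnePoint.rec with
  | coe w =>
    have e : Topology.IsOpenEmbedding (Prod.map (↑) id : V × I → OnePoint V × I) :=
      isOpenEmbedding_coe.prodMap Topology.IsOpenEmbedding.id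
    exact (e.continuousAt_iff (x := (w, t))).1 hf.continuousAt
  | infty =>
    intro U hU
    obtain ⟨K, hK, k⟩ := h U hU
    have : ∀ᶠ z : OnePoint V × I in 𝓝 (∞, t), z.1 ∈ (↑) '' Kᶜ ∪ {∞} :=
      continuous_fst.continuousAt.eventually (hasBasis_nhds_infty.mem_of_mem ⟨hK.isClosed, hK⟩)
    rw [mem_map]
    filter_upwards [this]
    rintro ⟨z, q⟩ (⟨w, hw, e⟩ | e)
    · obtain rfl : (w : OnePoint V) = z := e
      exact k w hw q
    · obtain rfl : z = ∞ := e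
      exact (mem_of_mem_nhds (show U ∈ 𝓝 t0 from hU) : t0 ∈ U)

variable {E F : Type} [NormedAddCommGroup E] [NormedSpace ℝ E] [NormedAddCommGroup F]
  [NormedSpace ℝ F] (L : (ℝ × F) ≃L[ℝ] E)

/-- homogeneous coordinates -/
def gP (w : E × F) (t : ℝ) : E × E :=
  ((1 - t + ((1 - t) * ‖w.1‖ + t)) • L ((1 - t) * ‖w.1‖ + t - (1 - t), (1 - t) • w.2),
    (1 - t) ^ 2 • w.1)

/-- the denominator -/
def gD (w : E × F) (t : ℝ) : ℝ := t * (1 - t) + ‖gP L w t‖

theorem gP_zero (w : E × F) : gP L w 0 = ((1 + ‖w.1‖) • L (‖w.1‖ - 1, w.2), w.1) := by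
  simp [gP]

theorem gP_one (w : E × F) : gP L w 1 = (L (1, 0), 0) := by
  simp [gP]

theorem gD_pos (w : E × F) (t : I) : 0 < gD L w t := by
  rcases eq_or_lt_of_le t.2.1 with h | h
  · rw [gD, ← h, gP_zero, zero_mul, zero_add, norm_pos_iff]
    intro e
    have h1 : w.1 = 0 := congrArg Prod.snd e
    have h2 : (1 + ‖w.1‖) • L (‖w.1‖ - 1, w.2) = 0 := congrArg Prod.fst e
    rw [h1, norm_zero, add_zero, one_smul, L.map_eq_zero_iff] at h2
    have := congrArg Prod.fst h2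
    norm_num at this
  · rcases eq_or_lt_of_le t.2.2 with k | k
    · rw [gD, k, gP_one, sub_self, mul_zero, zero_add, norm_pos_iff]
      intro e
      have h2 : L (1, 0) = 0 := congrArg Prod.fst e
      rw [L.map_eq_zero_iff] at h2
      have := congrArg Prod.fst h2
      norm_num at this
    · exact add_pos_of_pos_of_nonneg (mul_pos h (sub_pos.2 k)) (norm_nonneg _)

theorem gN_le (w : E × F) (t : I) : ‖(gD L w t)⁻¹ • gP L w t‖ ≤ 1 := by
  have h := gD_pos L w t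
  rw [norm_smul, norm_inv, Real.norm_eq_abs, abs_of_pos h, inv_mul_le_iff₀ h, mul_one, gD]
  have := mul_nonneg t.2.1 (sub_nonneg.2 t.2.2)
  linarith

/-- the point of the bidisc -/
def gB (w : E × F) (t : I) : DD E × DD E :=
  (⟨((gD L w t)⁻¹ • gP L w t).1, mem_closedBall_zero_iff.2 ((norm_fst_le _).trans (gN_le L w t))⟩,
   ⟨((gD L w t)⁻¹ • gP L w t).2, mem_closedBall_zero_iff.2 ((norm_snd_le _).trans (gN_le L w t))⟩)

theorem cont_gB : Continuous fun z : (E × F) × I => gB L z.1 z.2 := by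
  have h1 : Continuous fun z : (E × F) × I => gP L z.1 z.2 := by unfold gP; fun_prop
  have h2 : Continuous fun z : (E × F) × I => (gD L z.1 z.2)⁻¹ • gP L z.1 z.2 := by
    refine Continuous.smul (Continuous.inv₀ ?_ fun z => (gD_pos L _ _).ne') h1
    unfold gD; fun_prop
  exact (h2.fst.subtype_mk _).prodMk (h2.snd.subtype_mk _)

theorem gB_max (w : E × F) (t : I) :
    max ‖(gB L w t).1.1‖ ‖(gB L w t).2.1‖ = (gD L w t)⁻¹ * ‖gP L w t‖ := by
  change ‖(gD L w t)⁻¹ • gP L w t‖ = _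
  rw [norm_smul, norm_inv, Real.norm_eq_abs, abs_of_pos (gD_pos L w t)]

theorem gB_one (w : E × F) (t : I) :
    max ‖(gB L w t).1.1‖ ‖(gB L w t).2.1‖ = 1 ↔ t = 0 ∨ t = 1 := by
  have h := gD_pos L w t
  rw [gB_max, inv_mul_eq_one₀ h.ne', gD, add_eq_right, mul_eq_zero, sub_eq_zero]
  exact or_congr ⟨fun e => Subtype.ext e, fun e => congrArg Subtype.val e⟩
    ⟨fun e => Subtype.ext e.symm, fun e => (congrArg Subtype.val e).symm⟩

theorem g_est {ε κ : ℝ} (hε : 0 < ε) (hκ : ∀ w, ‖w‖ ≤ κ * ‖L w‖) (k0 : 0 < κ) (w : E × F)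
    (hw : 1 + κ / ε ≤ ‖w‖) (t : I) :
    t * (1 - t) + ‖(gP L w t).2‖ ≤ ε * ‖(gP L w t).1‖ := by
  obtain ⟨t, t0, t1⟩ := t
  have s0 : 0 ≤ 1 - t := sub_nonneg.2 t1
  have hy := norm_nonneg w.1
  set s := 1 - t with hs
  set v := s * ‖w.1‖ + t with hv
  have v0 : 0 ≤ v := by positivity
  have e1 : t * s + ‖(gP L w t).2‖ = s * v := by
    change t * s + ‖s ^ 2 • w.1‖ = _
    rw [norm_smul, norm_pow, Real.norm_eq_abs, abs_of_nonneg s0, hv]; ring
  have e2 : ‖(gP L w t).1‖ = (s + v) * ‖L (v - s, s • w.2)‖ := by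
    change ‖(s + v) • L (v - s, s • w.2)‖ = _
    rw [norm_smul, Real.norm_eq_abs, abs_of_nonneg (by positivity)]
  have h1 := hκ (v - s, s • w.2)
  have h2 : s * (κ / ε) ≤ ‖((v - s, s • w.2) : ℝ × F)‖ := by
    rw [Prod.norm_def] at hw ⊢
    rcases le_max_iff.1 hw with k | k
    · refine le_max_of_le_left (le_trans ?_ (le_abs_self _))
      change _ ≤ v - s
      rw [hv]; nlinarith
    · refine le_max_of_le_right ?_
      change _ ≤ ‖s • w.2‖
      rw [norm_smul, Real.norm_eq_abs, abs_of_nonneg s0]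
      exact mul_le_mul_of_nonneg_left (by linarith) s0
  have h3 : s ≤ ε * ‖L (v - s, s • w.2)‖ := by
    have h4 := h2.trans h1
    rw [← mul_div_assoc, div_le_iff₀ hε] at h4
    nlinarith
  change t * s + _ ≤ _
  rw [e1, e2]
  nlinarith [mul_le_mul_of_nonneg_left h3 (show 0 ≤ s + v by positivity)]

variable {m : E →L[ℝ] E →L[ℝ] E} (hm : ∀ s x, ‖m s x‖ = ‖s‖ * ‖x‖) {e : E} (he : ‖e‖ = 1)

include hm in
theorem near {x y : E} {ε : ℝ} (h1 : ‖x‖ ≤ 1) (h2 : 1 - ε ≤ ‖x‖) (h3 : ‖y‖ ≤ ε)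
    (h4 : ‖y‖ ≤ ‖x‖) : dist (qq m x y) (0, 1, -1, 0) ≤ 2 * ε := by
  have := norm_nonneg x
  have := norm_nonneg y
  rw [qq, max_eq_left h4]
  simp only [Prod.dist_eq, max_le_iff, dist_zero_right, Real.dist_eq, abs_le]
  refine ⟨?_, ⟨by linarith, by linarith⟩, ⟨by linarith, by linarith⟩, ?_⟩
  · rw [norm_smul, Real.norm_eq_abs, abs_of_nonneg (by linarith), Prod.norm_def, max_eq_left h4]
    nlinarith
  · rw [hm]; nlinarith

variable [FiniteDimensional ℝ E] [FiniteDimensional ℝ F]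

/-- the characteristic map of the reduced cone -/
def GG : C(OnePoint (E × F) × I, TP m) :=
  ⟨fun z => OnePoint.rec (jP hm he ∞) (fun w => QP m (gB L w z.2)) z.1, by
    refine cont_ext (f := fun z => QP m (gB L z.1 z.2)) ((QP m).continuous.comp (cont_gB L)) _ ?_
    intro U hU
    obtain ⟨U', hU', hs⟩ := (mem_nhds_subtype _ _ _).1 hU
    obtain ⟨δ, hδ, hb⟩ := Metric.nhds_basis_closedBall.mem_iff.1 hU'
    have : ProperSpace (E × F) := FiniteDimensional.proper_real _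
    obtain ⟨κ, k0, hκ⟩ : ∃ κ, 0 < κ ∧ ∀ w, ‖w‖ ≤ κ * ‖L w‖ :=
      ⟨‖(L.symm : E →L[ℝ] ℝ × F)‖ + 1, by positivity, fun w => by
        have h := (L.symm : E →L[ℝ] ℝ × F).le_opNorm (L w)
        rw [ContinuousLinearEquiv.coe_coe, L.symm_apply_apply] at h
        nlinarith [norm_nonneg (L w)]⟩
    have hε : 0 < min (δ / 2) 1 := by positivity
    have e1 := min_le_left (δ / 2) 1
    have e2 := min_le_right (δ / 2) 1
    generalize min (δ / 2) 1 = ε at hε e1 e2
    refine ⟨closedBall 0 (1 + κ / ε), isCompact_closedBall _ _, fun w hw t => hs (hb ?_)⟩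
    have h := g_est L hε hκ k0 w (by
      rw [mem_closedBall_zero_iff, not_le] at hw; exact hw.le) t
    have hd := gD_pos L w t
    have ht := mul_nonneg t.2.1 (sub_nonneg.2 t.2.2)
    have ha := norm_nonneg (gP L w t).1
    have hb := norm_nonneg (gP L w t).2
    have hle : ‖(gP L w t).2‖ ≤ ‖(gP L w t).1‖ := by nlinarith
    have hD : gD L w t = t * (1 - t) + ‖(gP L w t).1‖ := by
      rw [gD, Prod.norm_def, max_eq_left hle]
    have n1 : ‖(gB L w t).1.1‖ = (gD L w t)⁻¹ * ‖(gP L w t).1‖ := by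
      change ‖(gD L w t)⁻¹ • (gP L w t).1‖ = _
      rw [norm_smul, norm_inv, Real.norm_eq_abs, abs_of_pos hd]
    have n2 : ‖(gB L w t).2.1‖ = (gD L w t)⁻¹ * ‖(gP L w t).2‖ := by
      change ‖(gD L w t)⁻¹ • (gP L w t).2‖ = _
      rw [norm_smul, norm_inv, Real.norm_eq_abs, abs_of_pos hd]
    refine (near hm (ε := ε) (DD.le _) ?_ ?_ ?_).trans (by linarith)
    · rw [n1, le_inv_mul_iff₀ hd, hD]; nlinarith
    · rw [n2, inv_mul_le_iff₀ hd, hD]; nlinarith
    · rw [n1, n2]; exact mul_le_mul_of_nonneg_left hle (inv_pos.2 hd).le⟩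

theorem GG_inf (t : I) : GG L hm he (∞, t) = jP hm he ∞ := rfl

theorem GG_coe (w : E × F) (t : I) : GG L hm he (w, t) = QP m (gB L w t) := rfl

/-- the desuspended Hopf map -/
def f0 (m : E →L[ℝ] E →L[ℝ] E) (a : OnePoint (E × F)) : OnePoint E :=
  OnePoint.rec ∞ (fun w => dv (‖w.1‖ ^ 2 / (1 + ‖w.1‖)) (m w.1 (L (‖w.1‖ - 1, w.2)))) a

theorem GG_zero (a : OnePoint (E × F)) : GG L hm he (a, 0) = jP hm he (f0 L m a) := by
  induction a using OnePoint.rec with
  | infty => rfl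
  | coe w =>
    rw [GG_coe, QP_slope hm he _ _ ((gB_one L w 0).2 (.inl rfl))]
    congr 1
    have hd := gD_pos L w 0
    change dv (‖(gD L w 0)⁻¹ • (gP L w 0).2‖ ^ 2) (m ((gD L w 0)⁻¹ • (gP L w 0).2)
      ((gD L w 0)⁻¹ • (gP L w 0).1)) = dv _ _
    change 0 < gD L w 0 at hd
    rw [gP_zero, norm_smul, norm_inv, Real.norm_eq_abs, abs_of_pos hd]
    by_cases hy : w.1 = 0
    · simp [hy, dv_zero]
    · have h0 : 0 < ‖w.1‖ := norm_pos_iff.2 hy
      rw [dv_ne (by positivity), dv_ne (by positivity)]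
      simp only [_root_.map_smul, smul_apply, smul_smul]
      congr 2
      field_simp

theorem GG_one (a : OnePoint (E × F)) : GG L hm he (a, 1) = jP hm he ∞ := by
  induction a using OnePoint.rec with
  | infty => rfl
  | coe w =>
    rw [GG_coe, QP_slope hm he _ _ ((gB_one L w 1).2 (.inr rfl))]
    congr 1
    change dv (‖(gD L w 1)⁻¹ • (gP L w 1).2‖ ^ 2) _ = _
    rw [gP_one]
    simp [dv_zero]

/-- the collapsed part of the cylinder -/
def BD (V : Type) : Set (OnePoint V × I) := {z | z.2 = 0 ∨ z.2 = 1 ∨ z.1 = ∞}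

theorem jP_mem (a : OnePoint E) : (jP hm he a).1.2.1 = 1 :=
  (Set.ext_iff.1 (jP_range hm he) _).1 (mem_range_self a)

theorem GG_maps : MapsTo (GG L hm he) (BD (E × F)) {z | z.1.2.1 = 1} := by
  rintro ⟨a, t⟩ (h | h | h)
  · obtain rfl : t = 0 := h
    rw [GG_zero]; exact jP_mem hm he _
  · obtain rfl : t = 1 := h
    rw [GG_one]; exact jP_mem hm he _
  · obtain rfl : a = ∞ := h
    exact jP_mem hm he _

theorem GG_bd (z : OnePoint (E × F) × I) (h : (GG L hm he z).1.2.1 = 1) : z ∈ BD (E × F) := by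
  obtain ⟨a, t⟩ := z
  induction a using OnePoint.rec with
  | infty => exact .inr (.inr rfl)
  | coe w => exact ((gB_one L w t).1 h).imp id .inl

omit [FiniteDimensional ℝ E] [FiniteDimensional ℝ F] in
theorem gP_aff (w : E × F) {t τ : ℝ} (h0 : 0 < τ) (ht : t = τ / (1 + τ)) :
    gP L w t = (t * (1 - t)) • (L (((‖w.1‖ + τ) ^ 2 - 1) / τ, ((1 + (‖w.1‖ + τ)) / τ) • w.2),
      τ⁻¹ • w.1) := by
  have hs : 1 - t = 1 / (1 + τ) := by rw [ht]; field_simp; ring
  unfold gP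
  rw [hs, ht, Prod.smul_mk, ← _root_.map_smul, ← _root_.map_smul, Prod.smul_mk, Prod.smul_mk,
    smul_smul, smul_smul, smul_smul, smul_eq_mul, smul_eq_mul]
  congr 3
  · field_simp; ring
  · congr 1; field_simp
  · field_simp

omit [FiniteDimensional ℝ E] [FiniteDimensional ℝ F] in
theorem gB_aff (w : E × F) (t : I) {τ : ℝ} (h0 : 0 < τ) (ht : t.1 = τ / (1 + τ)) {R : E × E}
    (hR : R = (L (((‖w.1‖ + τ) ^ 2 - 1) / τ, ((1 + (‖w.1‖ + τ)) / τ) • w.2), τ⁻¹ • w.1)) :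
    ((gB L w t).1.1, (gB L w t).2.1) = (1 + ‖R‖)⁻¹ • R := by
  change (gD L w t)⁻¹ • gP L w t = _
  have hs : 1 - t.1 = 1 / (1 + τ) := by rw [ht]; field_simp; ring
  have hc : 0 < t.1 * (1 - t.1) := by rw [hs, ht]; positivity
  rw [gD, gP_aff L w h0 ht, ← hR, norm_smul, Real.norm_eq_abs, abs_of_pos hc, smul_smul]
  congr 1
  have := norm_nonneg R
  generalize t.1 * (1 - t.1) = c at hc
  field_simp

theorem tau_of {t : I} (h0 : t ≠ 0) (h1 : t ≠ 1) : ∃ τ : ℝ, 0 < τ ∧ t.1 = τ / (1 + τ) := by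
  have a0 : 0 < t.1 := lt_of_le_of_ne t.2.1 fun e => h0 (Subtype.ext e.symm)
  have a1 : 0 < 1 - t.1 := sub_pos.2 (lt_of_le_of_ne t.2.2 fun e => h1 (Subtype.ext e))
  exact ⟨t.1 / (1 - t.1), by positivity, by field_simp; ring⟩

omit [FiniteDimensional ℝ E] in
theorem aff_inj {R R' : E} (h : (1 + ‖R‖)⁻¹ • R = (1 + ‖R'‖)⁻¹ • R') : R = R' := by
  have a := norm_nonneg R
  have b := norm_nonneg R'
  have h3 := congrArg norm h
  rw [norm_smul, norm_smul, norm_inv, norm_inv, Real.norm_eq_abs, Real.norm_eq_abs,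
    abs_of_pos (by positivity), abs_of_pos (by positivity)] at h3
  have h4 : ‖R‖ = ‖R'‖ := by field_simp at h3; linarith
  rw [h4] at h
  exact smul_right_injective E (inv_ne_zero (by positivity)) h

theorem GG_fib [ProperSpace E] (z z' : OnePoint (E × F) × I)
    (h : GG L hm he z = GG L hm he z') : z = z' ∨ (z ∈ BD (E × F) ∧ z' ∈ BD (E × F)) := by
  by_cases hz : z ∈ BD (E × F)
  · exact .inr ⟨hz, GG_bd L hm he z' (h ▸ GG_maps L hm he hz)⟩
  have hz' : z' ∉ BD (E × F) := fun k => hz (GG_bd L hm he z (h ▸ GG_maps L hm he k))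
  left
  obtain ⟨a, t⟩ := z
  obtain ⟨a', t'⟩ := z'
  induction a using OnePoint.rec with
  | infty => exact absurd (.inr (.inr rfl)) hz
  | coe w =>
  induction a' using OnePoint.rec with
  | infty => exact absurd (.inr (.inr rfl)) hz'
  | coe w' =>
  obtain ⟨τ, h0, ht⟩ := tau_of (t := t) (fun k => hz (.inl k)) fun k => hz (.inr (.inl k))
  obtain ⟨τ', h0', ht'⟩ := tau_of (t := t') (fun k => hz' (.inl k)) fun k => hz' (.inr (.inl k))
  have hB : gB L w t = gB L w' t' := by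
    refine ((hd hm he).Qf _ _ h).resolve_right fun k => hz ?_
    exact GG_bd L hm he _ ((hd hm he).QS' k.1)
  have hR := aff_inj ((gB_aff L w t h0 ht rfl).symm.trans
    (hB ▸ gB_aff L w' t' h0' ht' rfl))
  have h1 : τ⁻¹ • w.1 = τ'⁻¹ • w'.1 := congrArg Prod.snd hR
  have h2 := L.injective (congrArg Prod.fst hR)
  have h3 : ((‖w.1‖ + τ) ^ 2 - 1) / τ = ((‖w'.1‖ + τ') ^ 2 - 1) / τ' := congrArg Prod.fst h2
  have h4 : ((1 + (‖w.1‖ + τ)) / τ) • w.2 = ((1 + (‖w'.1‖ + τ')) / τ') • w'.2 :=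
    congrArg Prod.snd h2
  have h5 := congrArg norm h1
  rw [norm_smul, norm_smul, norm_inv, norm_inv, Real.norm_eq_abs, Real.norm_eq_abs,
    abs_of_pos h0, abs_of_pos h0'] at h5
  obtain ⟨n, n0, e1, e2⟩ : ∃ n, 0 ≤ n ∧ ‖w.1‖ = τ * n ∧ ‖w'.1‖ = τ' * n :=
    ⟨τ⁻¹ * ‖w.1‖, by positivity, by field_simp, by rw [h5]; field_simp⟩
  have hτ : τ = τ' := by
    rw [e1, e2, div_eq_div_iff h0.ne' h0'.ne'] at h3
    have : (τ - τ') * (τ * τ' * (n + 1) ^ 2 + 1) = 0 := by linear_combination h3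
    exact sub_eq_zero.1 ((mul_eq_zero.1 this).resolve_right (by positivity))
  subst hτ
  have hy : w.1 = w'.1 := smul_right_injective E (inv_ne_zero h0.ne') h1
  rw [hy] at h4
  have hz : w.2 = w'.2 := smul_right_injective F (by positivity) h4
  rw [Prod.ext hy hz, Subtype.ext (ht.trans ht'.symm)]

theorem GG_sur (z : TP m) : z.1.2.1 = 1 ∨ z ∈ range (GG L hm he) := by
  obtain ⟨p, rfl⟩ := QP_surj m z
  by_cases hN : max ‖p.1.1‖ ‖p.2.1‖ = 1
  · exact .inl hN
  right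
  have h1 : 0 < 1 - ‖(p.1.1, p.2.1)‖ :=
    sub_pos.2 (lt_of_le_of_ne (max_le (DD.le _) (DD.le _)) hN)
  obtain ⟨R, hR⟩ : ∃ R : E × E, (p.1.1, p.2.1) = (1 + ‖R‖)⁻¹ • R := by
    refine ⟨(1 - ‖(p.1.1, p.2.1)‖)⁻¹ • (p.1.1, p.2.1), ?_⟩
    rw [norm_smul, norm_inv, Real.norm_eq_abs, abs_of_pos h1, smul_smul,
      show (1 + (1 - ‖(p.1.1, p.2.1)‖)⁻¹ * ‖(p.1.1, p.2.1)‖)⁻¹ * (1 - ‖(p.1.1, p.2.1)‖)⁻¹ = 1 by
        field_simp; ring, one_smul]
  have n0 := norm_nonneg R.2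
  obtain ⟨u, u0, hu⟩ : ∃ u : ℝ, 0 < u ∧ u ^ 2 - 1 = (L.symm R.1).1 / (1 + ‖R.2‖) * u := by
    generalize (L.symm R.1).1 / (1 + ‖R.2‖) = c
    have h2 := Real.sq_sqrt (show 0 ≤ c ^ 2 + 4 by positivity)
    have h3 : |c| < √(c ^ 2 + 4) := Real.lt_sqrt_of_sq_lt (by rw [sq_abs]; linarith)
    exact ⟨(c + √(c ^ 2 + 4)) / 2, by linarith [neg_abs_le c], by linear_combination h2 / 4⟩
  have h0 : 0 < u / (1 + ‖R.2‖) := by positivity
  generalize hτ : u / (1 + ‖R.2‖) = τ at h0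
  have e0 : u = τ * ‖R.2‖ + τ := by rw [← hτ]; field_simp; ring
  have e1 : ‖τ • R.2‖ + τ = u := by rw [norm_smul, Real.norm_eq_abs, abs_of_pos h0, e0]
  refine ⟨(((τ • R.2, (τ / (1 + u)) • (L.symm R.1).2) : E × F), ⟨τ / (1 + τ), by positivity,
    (div_le_one (by positivity)).2 (by linarith)⟩), ?_⟩
  rw [GG_coe]
  congr 1
  have := (gB_aff L (τ • R.2, (τ / (1 + u)) • (L.symm R.1).2) ⟨τ / (1 + τ), by positivity,
    (div_le_one (by positivity)).2 (by linarith)⟩ h0 rfl (R := R) (by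
      dsimp only
      rw [e1, smul_smul, smul_smul, inv_mul_cancel₀ h0.ne', one_smul,
        show (1 + u) / τ * (τ / (1 + u)) = 1 by field_simp, one_smul, hu,
        show (L.symm R.1).1 / (1 + ‖R.2‖) * u / τ = (L.symm R.1).1 by
          rw [← hτ]; field_simp, Prod.mk.eta, L.apply_symm_apply])).trans hR.symm
  exact Prod.ext (Subtype.ext (congrArg Prod.fst this)) (Subtype.ext (congrArg Prod.snd this))

theorem GG_bij [ProperSpace E] [ProperSpace F] :
    Bijective (kc (GG L hm he) (GG_maps L hm he)) :=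
  kc_bij _ _ (hd hm he).cS (a := (∞, 0)) (.inl rfl) (GG_sur L hm he) (GG_bd L hm he)
    (GG_fib L hm he)

end Crest.Agent.N218.Hf
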