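import Crest.Agent.N218.Hf.G
import Crest.Agent.N218.Hf.Ecl
import Crest.Agent.N218.K.Col
import Crest.Agent.N218.D3.Defs

/-!
# Row 218, block D3, leaf HOPF (helper39): the desuspended Hopf problem has odd `e`-invariant
-/

set_option autoImplicit false
set_option linter.unusedVariables false
set_option linter.unusedSectionVars false

open scoped unitInterval Topology
open Set Function OnePoint Metric Filter Module

noncomputable section

namespace Crest.Agent.N218.Hf

open K D3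

/-- projection to the fibre -/
def prj (M : LS Unit) : C((Sb P0 M).E, OnePoint M.Z) :=
  (P0.prod M.sph).lift ContinuousMap.snd fun g z => M.sph.one z.2

theorem prj_pt (M : LS Unit) (y : Unit) (w : OnePoint M.Z) : prj M (pt P0 M y w) = w := rfl

theorem prj_bij (M : LS Unit) : Bijective (prj M) := by
  refine ⟨fun a b h => ?_, fun w => ⟨pt P0 M () w, rfl⟩⟩
  obtain ⟨y, w, rfl⟩ := pt_surj a
  obtain ⟨y', w', rfl⟩ := pt_surj b
  obtain rfl : w = w' := h
  rfl

theorem p0_eq (x : P0.Q) : x = P0.pr () := by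
  obtain ⟨y, rfl⟩ := P0.pr_surj x
  rfl

section plain
variable {A B : Type} [NormedAddCommGroup A] [NormedSpace ℝ A] [FiniteDimensional ℝ A]
  [NormedAddCommGroup B] [NormedSpace ℝ B] [FiniteDimensional ℝ B]

theorem gn_th (h : SPH) {k : ℕ} (hk : finrank ℝ A = 2 * k) :
    (∃ g, Gn (kv ((sp A).s (P0.pr ()))) g) ∧ ∀ g, Gn (kv ((sp A).s (P0.pr ()))) g →
      (sp A).Th g ∧ ps _ g = (3 : ℤ) ^ k • g := by
  obtain ⟨g, a, b, c, d, e⟩ := h k hk
  have hg : Gn (kv ((sp A).s (P0.pr ()))) g :=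
    ⟨(rd_iff p0_eq g).1 a.1, fun x hx => c x ((rd_iff p0_eq x).2 hx), d⟩
  refine ⟨⟨g, hg⟩, fun g' h' => ?_⟩
  obtain ⟨n, hn, rfl⟩ := hg.sign h'
  refine ⟨(e _).2 ?_, by rw [map_zsmul, b, smul_comm]⟩
  rcases Int.isUnit_iff.1 hn with rfl | rfl
  · exact .inl (one_smul _ _)
  · exact .inr (neg_one_smul _ _)

theorem ok_fp {p : Pp A B} (h : Okp p) : (fp p).Ok := by
  refine ⟨h.op.preimage continuous_snd, fun _ _ o => o,
    h.ct.comp continuous_snd.continuousOn fun _ o => o, fun _ _ _ => rfl, ?_⟩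
  have e : {x ∈ (fp p).O | (fp p).f x = 0} = univ ×ˢ {a | a ∈ p.1 ∧ p.2 a = 0} :=
    Set.ext fun x => ⟨fun o => ⟨trivial, o⟩, fun o => o.2⟩
  rw [e]
  exact (isCompact_univ (X := Unit)).prod h.cp

theorem pm_of {f : OnePoint A → OnePoint B} (hf : Continuous f) (h0 : f ∞ = ∞) :
    Pm P0 (tv A) (tv B) fun x => f (OnePoint.some x.2) := by
  refine ⟨hf.comp (continuous_coe.comp continuous_snd), fun (K' : Set B) hK' => ?_, fun γ y w => ?_⟩
  · have h1 : IsClosed (f ⁻¹' (OnePoint.some '' K')) :=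
      (hK'.image continuous_coe).isClosed.preimage hf
    refine ⟨OnePoint.some ⁻¹' (f ⁻¹' (OnePoint.some '' K')), ((isClosed_iff_of_notMem ?_).1 h1).2,
      fun p w w' n e k => n ⟨w', k, e.symm⟩⟩
    rintro ⟨w, -, e⟩
    exact coe_ne_infty _ (e.trans h0)
  · exact ((tv B).sph.one _).symm
end plain

theorem cast81 {R : Type} [CommRing R] : ((81 : ℤ) : R) = 3 ^ 4 := by norm_num

variable {E F : Type} [NormedAddCommGroup E] [NormedSpace ℝ E] [NormedAddCommGroup F]
  [NormedSpace ℝ F] [FiniteDimensional ℝ E] [FiniteDimensional ℝ F] (L : (ℝ × F) ≃L[ℝ] E)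

/-- the desuspended Hopf problem -/
def p0 (m : E →L[ℝ] E →L[ℝ] E) : Pp (E × F) E :=
  ({w | w.1 ≠ 0}, fun w => (‖w.1‖ ^ 2 / (1 + ‖w.1‖))⁻¹ • m w.1 (L (‖w.1‖ - 1, w.2)))

variable {m : E →L[ℝ] E →L[ℝ] E} (hm : ∀ s x, ‖m s x‖ = ‖s‖ * ‖x‖) {e : E} (he : ‖e‖ = 1)
include hm

theorem m_zero {y x : E} (hy : y ≠ 0) (h : m y x = 0) : x = 0 := by
  have := hm y x
  rw [h, norm_zero, eq_comm, mul_eq_zero, norm_eq_zero, norm_eq_zero] at this
  exact this.resolve_left hy

theorem ok_p0 : Okp (p0 L m) := by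
  have : ProperSpace E := FiniteDimensional.proper_real E
  refine ⟨isOpen_ne_fun continuous_fst continuous_const, ContinuousOn.smul (ContinuousOn.inv₀
    (Continuous.continuousOn (Continuous.div (by fun_prop) (by fun_prop) fun w => by positivity))
    fun w hw => ?_) (by fun_prop), ?_⟩
  · have := norm_pos_iff.2 hw
    positivity
  · convert (isCompact_sphere (0 : E) 1).prod (isCompact_singleton (x := (0 : F))) using 1
    ext w
    refine ⟨fun ⟨h1, h2⟩ => ?_, fun ⟨h1, h2⟩ => ?_⟩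
    · have := norm_pos_iff.2 h1
      have h3 := m_zero hm h1 ((smul_eq_zero.1 h2).resolve_left (by positivity))
      rw [L.map_eq_zero_iff] at h3
      exact ⟨mem_sphere_zero_iff_norm.2 (sub_eq_zero.1 (congrArg Prod.fst h3)),
        congrArg Prod.snd h3⟩
    · have h3 := mem_sphere_zero_iff_norm.1 h1
      have h4 : w.2 = 0 := h2
      refine ⟨norm_ne_zero_iff.1 (by rw [h3]; exact one_ne_zero), ?_⟩
      change _ • m w.1 (L (‖w.1‖ - 1, w.2)) = 0
      rw [h3, h4, sub_self, Prod.mk_zero_zero, map_zero, map_zero, smul_zero]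

include he

theorem cont_f0 : Continuous (f0 L m) := by
  have h := ((jP hm he).continuous.isClosedEmbedding (jP_inj hm he)).isEmbedding
  rw [h.continuous_iff]
  exact ((GG L hm he).continuous.comp (continuous_id.prodMk continuous_const)).congr
    fun a => GG_zero L hm he a

theorem nu_p0 (hS : SPH) (hE : EHT) (h8 : finrank ℝ E = 8) (h7 : finrank ℝ F = 7) :
    Nu (p0 L m) := by
  have : ProperSpace E := FiniteDimensional.proper_real E
  have : ProperSpace F := FiniteDimensional.proper_real F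
  have pm := pm_of (cont_f0 L hm he) rfl
  obtain ⟨F0, r⟩ := pm.exists_rg
  have ht : (fp (p0 L m)).hm.Ht F0 := (ok_fp (ok_p0 L hm)).proper pm (fun x o => by
      have := norm_pos_iff.2 (show x.2.1 ≠ 0 from o)
      exact dv_ne (div_ne_zero (pow_ne_zero 2 this.ne') (add_pos one_pos this).ne') _) (fun x o => by
      have h : x.2.1 = 0 := not_not.1 o
      change dv (‖x.2.1‖ ^ 2 / _) _ = _
      rw [h, norm_zero, zero_pow two_ne_zero, zero_div, dv_zero]
      rfl) r
  obtain ⟨⟨g, hg⟩, k8⟩ := gn_th (A := E) hS (k := 4) h8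
  have k16 := (gn_th (A := (E × F) × ℝ) hS (k := 8) (by simp [h8, h7])).2
  let ι : C(OnePoint E, (sp E).E) :=
    ⟨fun w => pt P0 (tv E) () w, (cont_pt (Y := P0) (M := tv E)).comp
      (f := fun w => ((), w)) (continuous_const.prodMk continuous_id)⟩
  have ιp : ∀ x, ι (prj (tv E) x) = x := fun x => (prj_bij (tv E)).1 rfl
  have hb : Gn (kv ∞) (kp ι g) := hg.map (kp ι).toAddMonoidHom
    (kp_bij ι ⟨fun a b h => congrArg (prj (tv E)) h, fun x => ⟨_, ιp x⟩⟩) fun x => kv_kp ι ∞ x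
  obtain ⟨ξ, η, μ, h1, h2, -, h3, h4⟩ := plane hm he h8 hb
  have hp := prj_bij (tv (E × F))
  have bd : ∀ z : (sp (E × F)).E × I, (prj (tv (E × F)) z.1, z.2) ∈ BD (E × F) →
      (sp (E × F)).Bd z := fun z h => h.imp id (Or.imp id fun k => hp.1 (by
        rw [p0_eq ((sp (E × F)).p _)]; exact k))
  have cm : ∀ a, prj (tv E) (F0.f a) = f0 L m (prj (tv (E × F)) a) :=
    sb_ind (fun y => congrArg (prj (tv E)) (F0.f_inf y)) fun y w => congrArg (prj (tv E)) (r y w)
  obtain ⟨t, ht1, ht2⟩ := ecl_of F0 (sd P0 (tv (E × F))) p0_eq (hd hm he).cS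
    ((GG L hm he).comp ((prj (tv (E × F))).prodMap (.id I))) ((jP hm he).comp (prj (tv E)))
    (fun a => (GG_zero L hm he _).trans (congrArg (jP hm he) (cm a).symm))
    (fun a => GG_one L hm he _) (fun t => rfl) (fun b => jP_mem hm he _)
    (fun y => (GG_sur L hm he y).imp id fun ⟨z, hz⟩ => ⟨(pt P0 (tv (E × F)) () z.1, z.2), hz⟩)
    (fun z h => bd z (GG_bd L hm he _ h))
    (fun z z' h => by
      rcases GG_fib L hm he _ _ h with k | k
      · exact .inl (Prod.ext (hp.1 (congrArg Prod.fst k)) (congrArg Prod.snd k :))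
      · exact .inr ⟨bd z k.1, bd z' k.2⟩) h3 h4
  have e1 : pull ((jP hm he).comp (prj (tv E))) ξ = g :=
    ((kp_kp (Y := OnePoint E) (prj (tv E)) (jP hm he) _ (fun _ => rfl) ξ).symm.trans
      (congrArg _ h2)).trans ((kp_kp (Y := OnePoint E) (prj (tv E)) ι (.id _) ιp g).trans
        (kp_id _ (fun _ => rfl) g))
  rw [e1, cast81] at ht2
  exact ⟨4, g, t, μ, (k8 g hg).1, (k16 t ht1).1, h1, (k16 t ht1).2, hE _ _ _ _ _ _ ht.sy ht2⟩

end Crest.Agent.N218.Hf
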