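import Crest.Agent.R204.KFin_837
import Crest.Agent.R204.KIn_515

/-!
# Row 218, block D3, leaf HOPF (helper39): generators and relative products
-/

set_option autoImplicit false
set_option linter.unusedVariables false
set_option linter.unusedSectionVars false

open scoped unitInterval Topology
open Set Function

noncomputable section

namespace Crest.Agent.N218.Hf

open Crest.Agent.R204 H472 Ex837 ExM515 HMain515
open K357 (K0 psi psi_map psi_comm psi_two)

/-! ## free generators -/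

section Gn
variable {A B C : Type} [AddCommGroup A] [AddCommGroup B] [AddCommGroup C]

/-- `b` is a free generator of the kernel of `ε` -/
def Gn (ε : A → C) (b : A) : Prop :=
  ε b = 0 ∧ (∀ x, ε x = 0 → ∃ n : ℤ, x = n • b) ∧ ∀ n : ℤ, n • b = 0 → n = 0

theorem Gn.map {ε : A → C} {δ : B → C} {b : A} (h : Gn ε b) (φ : A →+ B) (hφ : Bijective φ)
    (e : ∀ x, δ (φ x) = ε x) : Gn δ (φ b) := by
  refine ⟨(e b).trans h.1, fun y hy => ?_, fun n hn => h.2.2 n (hφ.1 ?_)⟩
  · obtain ⟨x, rfl⟩ := hφ.2 y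
    obtain ⟨n, rfl⟩ := h.2.1 x ((e x).symm.trans hy)
    exact ⟨n, map_zsmul φ n b⟩
  · rw [map_zsmul, hn, map_zero]

theorem Gn.of_map {ε : A → C} {δ : B → C} {b : A} (φ : A →+ B) (hφ : Bijective φ)
    (e : ∀ x, δ (φ x) = ε x) (h : Gn δ (φ b)) : Gn ε b := by
  refine ⟨(e b).symm.trans h.1, fun x hx => ?_, fun n hn => h.2.2 n ?_⟩
  · obtain ⟨n, hn⟩ := h.2.1 (φ x) ((e x).trans hx)
    exact ⟨n, hφ.1 (by rw [map_zsmul, hn])⟩
  · rw [← map_zsmul, hn, map_zero]

theorem Gn.unit {ε : A → C} {b x : A} (h : Gn ε b) (hx : ε x = 0) {k : ℤ} (hk : x = k • b)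
    (hu : IsUnit k) : Gn ε x := by
  have hkk : k * k = 1 := by rcases Int.isUnit_iff.1 hu with rfl | rfl <;> norm_num
  refine ⟨hx, fun y hy => ?_, fun n hn => ?_⟩
  · obtain ⟨n, rfl⟩ := h.2.1 y hy
    exact ⟨n * k, by rw [hk, smul_smul, mul_assoc, hkk, mul_one]⟩
  · rw [hk, smul_smul] at hn
    have := h.2.2 _ hn
    have h2 : n = n * k * k := by rw [mul_assoc, hkk, mul_one]
    rw [h2, this, zero_mul]

/-- a class that maps to a generator is a generator -/
theorem Gn.of_to {ε : A → C} {δ : B → C} {g x : A} {b : B} (hg : Gn ε g) (hb : Gn δ b)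
    (φ : A →+ B) (e : ∀ x, δ (φ x) = ε x) (hx : ε x = 0) (h : φ x = b) : Gn ε x := by
  obtain ⟨k, hk⟩ := hg.2.1 x hx
  obtain ⟨n, hn⟩ := hb.2.1 (φ g) ((e g).trans hg.1)
  refine hg.unit hx hk ?_
  have : (k * n - 1) • b = 0 := by
    rw [sub_smul, mul_smul, ← hn, ← map_zsmul, ← hk, h, one_smul, sub_self]
  have h2 := hb.2.2 _ this
  exact IsUnit.of_mul_eq_one n (by linarith)

theorem Gn.sign {ε : A → C} {g x : A} (hg : Gn ε g) (hx : Gn ε x) :
    ∃ k : ℤ, IsUnit k ∧ x = k • g := by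
  obtain ⟨k, hk⟩ := hg.2.1 x hx.1
  obtain ⟨n, hn⟩ := hx.2.1 g hg.1
  have : (n * k - 1) • g = 0 := by
    rw [sub_smul, mul_smul, ← hk, ← hn, one_smul, sub_self]
  have h2 := hg.2.2 _ this
  exact ⟨k, IsUnit.of_mul_eq_one n (by linarith), hk⟩

theorem Gn.congr {ε δ : A → C} {b : A} (h : Gn ε b) (e : ∀ x, δ x = ε x) : Gn δ b := by
  have : δ = ε := funext e
  rw [this]; exact h

end Gn

/-! ## named homomorphisms -/

variable {X Y Z : Type} [TopologicalSpace X] [TopologicalSpace Y] [TopologicalSpace Z]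

/-- pull-back on pairs -/
def kc (g : C(X, Y)) {A : Set X} {B : Set Y} (hg : MapsTo g A B) : KC (CR Y B) →+* KC (CR X A) :=
  KM (A := CR Y B) (B := CR X A) (CR.comap g hg).toRingHom
/-- from the pair to the space -/
def ki (A : Set X) : KC (CR X A) →+* KC C(X, ℂ) :=
  KM (A := CR X A) (B := C(X, ℂ)) (CR X A).val.toRingHom
/-- evaluation on a pair -/
def ke (A : Set X) (a : X) : KC (CR X A) →+* KC ℂ :=
  KM (A := CR X A) (B := ℂ) (CR.ev a : CR X A →ₐ[ℂ] ℂ).toRingHom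
/-- pull-back -/
def kp (g : C(X, Y)) : KC C(Y, ℂ) →+* KC C(X, ℂ) :=
  KM (A := C(Y, ℂ)) (B := C(X, ℂ)) (ContinuousMap.compRightAlgHom ℂ ℂ g).toRingHom
/-- evaluation -/
def kv (x : X) : KC C(X, ℂ) →+* KC ℂ :=
  KM (A := C(X, ℂ)) (B := ℂ) (ContinuousMap.evalAlgHom ℂ ℂ x).toRingHom
/-- constants -/
def kk (X : Type) [TopologicalSpace X] : KC ℂ →+* KC C(X, ℂ) :=
  KM (A := ℂ) (B := C(X, ℂ)) (algebraMap ℂ C(X, ℂ))

/-- Adams operations on pairs -/
def pC (p : ℕ) [Fact p.Prime] (A : Set X) : KC (CR X A) →+* KC (CR X A) := psi p (CR X A)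
/-- Adams operations on spaces -/
def pX (p : ℕ) [Fact p.Prime] (X : Type) [TopologicalSpace X] : KC C(X, ℂ) →+* KC C(X, ℂ) :=
  psi p C(X, ℂ)

section names
variable {A : Set X} {B : Set Y} {C : Set Z}

theorem KM_eq {R S T U : Type} [CommRing R] [CommRing S] [CommRing T] [CommRing U]
    (φ : R →+* S) (ψ : S →+* U) (φ' : R →+* T) (ψ' : T →+* U) (h : ∀ a, ψ (φ a) = ψ' (φ' a))
    (x : KC R) : KM ψ (KM φ x) = KM ψ' (KM φ' x) :=
  (KM_comp φ ψ (ψ.comp φ) (fun _ => rfl) x).trans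
    (KM_comp φ' ψ' (ψ.comp φ) (fun a => (h a).symm) x).symm

theorem kc_kc (g : C(X, Y)) (hg : MapsTo g A B) (f : C(Y, Z)) (hf : MapsTo f B C)
    (k : C(X, Z)) (hk : MapsTo k A C) (h : ∀ x, f (g x) = k x) (x : KC (CR Z C)) :
    kc g hg (kc f hf x) = kc k hk x :=
  KM_comp _ _ _ (fun a => Subtype.ext (ContinuousMap.ext fun x => congrArg a.1 (h x))) x

theorem kc_id (g : C(X, X)) (hg : MapsTo g A A) (h : ∀ x, g x = x) (x : KC (CR X A)) :
    kc g hg x = x :=
  KM_id _ (fun a => Subtype.ext (ContinuousMap.ext fun x => congrArg a.1 (h x))) x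

theorem kp_kp (g : C(X, Y)) (f : C(Y, Z)) (k : C(X, Z)) (h : ∀ x, f (g x) = k x)
    (x : KC C(Z, ℂ)) : kp g (kp f x) = kp k x :=
  by unfold kp; exact KM_comp _ _ _ (by exact fun a => ContinuousMap.ext fun x => congrArg a (h x)) x

theorem kp_id (g : C(X, X)) (h : ∀ x, g x = x) (x : KC C(X, ℂ)) : kp g x = x :=
  KM_id _ (fun a => ContinuousMap.ext fun x => congrArg a (h x)) x

theorem ki_kc (g : C(X, Y)) (hg : MapsTo g A B) (x : KC (CR Y B)) :
    ki A (kc g hg x) = kp g (ki B x) := by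
  unfold ki kc kp; exact KM_eq _ _ _ _ (by exact fun _ => rfl) x

theorem kv_ki (a : X) (x : KC (CR X A)) : kv a (ki A x) = ke A a x :=
  KM_comp _ _ _ (fun _ => rfl) x

theorem kv_kp (g : C(X, Y)) (a : X) (x : KC C(Y, ℂ)) : kv a (kp g x) = kv (g a) x :=
  KM_comp _ _ _ (fun _ => rfl) x

theorem ke_kc (g : C(X, Y)) (hg : MapsTo g A B) (a : X) (x : KC (CR Y B)) :
    ke A a (kc g hg x) = ke B (g a) x := KM_comp _ _ _ (fun _ => rfl) x

theorem ke_eq {a a' : X} (ha : a ∈ A) (ha' : a' ∈ A) (x : KC (CR X A)) :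
    ke A a x = ke A a' x := by
  have : (CR.ev a : CR X A →ₐ[ℂ] ℂ).toRingHom = (CR.ev a' : CR X A →ₐ[ℂ] ℂ).toRingHom :=
    RingHom.ext fun f => f.2 a ha a' ha'
  rw [ke, ke, this]

theorem kp_const (g : C(X, Y)) (y : Y) (h : ∀ x, g x = y) (x : KC C(Y, ℂ)) :
    kp g x = kk X (kv y x) :=
  by unfold kp kk kv; exact (KM_comp _ _ _ (by exact fun a => ContinuousMap.ext fun x => (congrArg a (h x)).symm) x).symm

/-- a class on a pair restricts to a constant on the subspace -/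
theorem kp_ki (g : C(X, Y)) (hg : ∀ x, g x ∈ B) {b : Y} (hb : b ∈ B) (x : KC (CR Y B)) :
    kp g (ki B x) = kk X (ke B b x) :=
  KM_eq _ _ _ _ (fun a => ContinuousMap.ext fun x => a.2 _ (hg x) _ hb) x

theorem psi_kc (p : ℕ) [Fact p.Prime] (g : C(X, Y)) (hg : MapsTo g A B) (x : KC (CR Y B)) :
    pC p A (kc g hg x) = kc g hg (pC p B x) := by
  have h := psi_KM (A := CR Y B) (B := CR X A) p (CR.comap g hg) (CR.comap g hg).toRingHom
    (fun _ => rfl) x
  exact h
theorem psi_ki (p : ℕ) [Fact p.Prime] (x : KC (CR X A)) :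
    pX p X (ki A x) = ki A (pC p A x) := by
  have h := psi_KM (A := CR X A) (B := C(X, ℂ)) p (CR X A).val (CR X A).val.toRingHom
    (fun _ => rfl) x
  exact h
theorem psi_kp (p : ℕ) [Fact p.Prime] (g : C(X, Y)) (x : KC C(Y, ℂ)) :
    pX p X (kp g x) = kp g (pX p Y x) := by
  unfold pX kp
  exact psi_KM p (ContinuousMap.compRightAlgHom ℂ ℂ g) _ (fun _ => rfl) x
theorem psi_kv (p : ℕ) [Fact p.Prime] (a : X) (x : KC C(X, ℂ)) :
    psi p ℂ (kv a x) = kv a (pX p X x) := by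
  unfold pX kv
  exact psi_KM p (ContinuousMap.evalAlgHom ℂ ℂ a) _ (fun _ => rfl) x

theorem KM_bij {R S : Type} [CommRing R] [CommRing S] (φ : R →+* S) (h : Bijective φ) :
    Bijective (KM φ) := by
  let e := RingEquiv.ofBijective φ h
  refine bijective_iff_has_inverse.2 ⟨KM e.symm.toRingHom, fun x => ?_, fun x => ?_⟩
  · exact (KM_comp _ _ (RingHom.id R) (fun a => e.symm_apply_apply a) x).trans
      (KM_id _ (fun _ => rfl) x)
  · exact (KM_comp _ _ (RingHom.id S) (fun a => e.apply_symm_apply a) x).trans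
      (KM_id _ (fun _ => rfl) x)

/-- relative homeomorphisms, not necessarily onto -/
theorem comap_bij [CompactSpace X] [CompactSpace Y] [T2Space Y] (g : C(X, Y)) (hg : MapsTo g A B)
    (hB : IsClosed B) {a : X} (ha : a ∈ A) (hs : ∀ y, y ∈ B ∨ y ∈ range g)
    (hA : ∀ x, g x ∈ B → x ∈ A) (hf : ∀ x z, g x = g z → x = z ∨ (x ∈ A ∧ z ∈ A)) :
    Bijective (CR.comap g hg) := by
  constructor
  · intro u v h
    have h' : ∀ x, u.1 (g x) = v.1 (g x) := fun x => congrArg (fun c : CR X A => c.1 x) h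
    refine Subtype.ext (ContinuousMap.ext fun y => ?_)
    rcases hs y with hy | ⟨x, rfl⟩
    · rw [u.2 y hy _ (hg ha), v.2 y hy _ (hg ha), h']
    · exact h' x
  · intro u
    have : CompactSpace B := isCompact_iff_compactSpace.1 hB.isCompact
    let p : C(X ⊕ B, Y) := ⟨Sum.elim g Subtype.val, by fun_prop⟩
    have hp : Surjective p := fun y => by
      rcases hs y with hy | ⟨x, rfl⟩
      · exact ⟨.inr ⟨y, hy⟩, rfl⟩
      · exact ⟨.inl x, rfl⟩
    have hq : Topology.IsQuotientMap p := (p.continuous.isClosedMap).isQuotientMap p.continuous hp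
    let F : C(X ⊕ B, ℂ) := ⟨Sum.elim u.1 fun _ => u.1 a, by fun_prop⟩
    have hF : FactorsThrough F p := by
      rintro (x | x) (z | z) h
      · rcases hf x z h with rfl | ⟨h1, h2⟩
        · rfl
        · exact u.2 _ h1 _ h2
      · exact u.2 _ (hA x (by change g x = z.1 at h; rw [h]; exact z.2)) _ ha
      · exact u.2 _ ha _ (hA z (by change x.1 = g z at h; rw [← h]; exact x.2))
      · rfl
    have hb : ∀ w, hq.lift F hF (p w) = F w := fun w =>
      congrArg (fun c : C(X ⊕ B, ℂ) => c w) (hq.lift_comp F hF)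
    refine ⟨⟨hq.lift F hF, fun y hy y' hy' => ?_⟩, Subtype.ext (ContinuousMap.ext fun x => ?_)⟩
    · exact (hb (.inr ⟨y, hy⟩)).trans (hb (.inr ⟨y', hy'⟩)).symm
    · exact hb (.inl x)

theorem kc_bij [CompactSpace X] [CompactSpace Y] [T2Space Y] (g : C(X, Y)) (hg : MapsTo g A B)
    (hB : IsClosed B) {a : X} (ha : a ∈ A) (hs : ∀ y, y ∈ B ∨ y ∈ range g)
    (hA : ∀ x, g x ∈ B → x ∈ A) (hf : ∀ x z, g x = g z → x = z ∨ (x ∈ A ∧ z ∈ A)) :
    Bijective (kc g hg) := KM_bij _ (comap_bij g hg hB ha hs hA hf)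

theorem kp_bij [CompactSpace X] [T2Space Y] (g : C(X, Y)) (hg : Bijective g) :
    Bijective (kp g) := by
  let e : X ≃ₜ Y := Continuous.homeoOfEquivCompactToT2 (f := Equiv.ofBijective g hg) g.continuous
  refine bijective_iff_has_inverse.2 ⟨kp ⟨e.symm, e.symm.continuous⟩, fun x => ?_, fun x => ?_⟩
  · exact (kp_kp _ _ (.id Y) (fun y => e.apply_symm_apply y) x).trans (kp_id _ (fun _ => rfl) x)
  · exact (kp_kp _ _ (.id X) (fun y => e.symm_apply_apply y) x).trans (kp_id _ (fun _ => rfl) x)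

theorem ki_bij (y : Y) : Bijective (ki ({y} : Set Y)) :=
  KM_bij _ ⟨Subtype.val_injective, fun a => ⟨⟨a, fun _ h _ h' => by rw [h, h']⟩, rfl⟩⟩

/-- homotopy invariance for pairs -/
theorem kc_ht [CompactSpace X] (H : C(I × X, Y)) (hH : ∀ t, ∀ x ∈ A, H (t, x) ∈ B)
    (g : C(X, Y)) (hg : MapsTo g A B) (g' : C(X, Y)) (hg' : MapsTo g' A B)
    (h0 : ∀ x, H (0, x) = g x) (h1 : ∀ x, H (1, x) = g' x) (x : KC (CR Y B)) :
    kc g hg x = kc g' hg' x := by
  have key := HInv313.map_apply_eq_of_homotopy (A := CR Y B) (B := CR X A)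
    (fun t => (CR.comap (H.curry t) (fun x hx => hH t x hx)).toRingHom) (fun f => by
      refine Continuous.subtype_mk ?_ _
      exact (ContinuousMap.continuous_postcomp f.1).comp H.curry.continuous) x
  have e0 : (CR.comap (A := A) (B := B) (H.curry 0) (fun x hx => hH 0 x hx)).toRingHom =
      (CR.comap g hg).toRingHom :=
    RingHom.ext fun a => Subtype.ext (ContinuousMap.ext fun x => congrArg a.1 (h0 x))
  have e1 : (CR.comap (A := A) (B := B) (H.curry 1) (fun x hx => hH 1 x hx)).toRingHom =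
      (CR.comap g' hg').toRingHom :=
    RingHom.ext fun a => Subtype.ext (ContinuousMap.ext fun x => congrArg a.1 (h1 x))
  simp only [e0, e1] at key
  exact key

theorem kp_ht [CompactSpace X] (H : C(I × X, Y)) (g g' : C(X, Y))
    (h0 : ∀ x, H (0, x) = g x) (h1 : ∀ x, H (1, x) = g' x) (x : KC C(Y, ℂ)) :
    kp g x = kp g' x := by
  have key := HInv313.map_compHom_eq (B := ℂ) (g₀ := g) (g₁ := g') ⟨H, h0, h1⟩
  exact DFunLike.congr_fun key x

theorem kv_path (γ : C(I, X)) (x : KC C(X, ℂ)) : kv (γ 0) x = kv (γ 1) x :=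
  HInv313.map_apply_eq_of_homotopy (A := C(X, ℂ)) (B := ℂ)
    (fun t => (ContinuousMap.evalAlgHom ℂ ℂ (γ t)).toRingHom)
    (fun f => f.continuous.comp γ.continuous) x

/-- exactness -/
theorem rel_of [CompactSpace X] [T2Space X] (hA : IsClosed A) {a : X} (ha : a ∈ A)
    {x : KC C(X, ℂ)} (hx : kp (⟨Subtype.val, continuous_subtype_val⟩ : C(A, X)) x = 0) :
    ∃ z : KC (CR X A), ki A z = x ∧ ke A a z = 0 := E1 hA ha (x := x) hx

theorem ki_inj [CompactSpace X] [T2Space X] [CompactSpace A] (hA : IsClosed A)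
    (hK : K1Triv C(A, ℂ)) {a : X} (ha : a ∈ A) {z : KC (CR X A)} (hz : ki A z = 0) : z = 0 :=
  E1_inj' hA hK ha (x := z) hz

/-! ## external and relative products -/

/-- external product -/
def ex {a : X} (ha : a ∈ A) {b : Y} (hb : b ∈ B) (x : KC (CR X A)) (y : KC (CR Y B)) :
    KC (CR (X × Y) (smashSet A B)) := (smCR ha hb).ext x y

theorem ex_ke {a : X} (ha : a ∈ A) {b : Y} (hb : b ∈ B) {x : KC (CR X A)} {y : KC (CR Y B)}
    (hx : ke A a x = 0) (hy : ke B b y = 0) : ke (smashSet A B) (a, b) (ex ha hb x y) = 0 :=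
  (smCR ha hb).ev_ext (x := x) (y := y) hx hy

theorem ex_ki {a : X} (ha : a ∈ A) {b : Y} (hb : b ∈ B) {x : KC (CR X A)} {y : KC (CR Y B)}
    (hx : ke A a x = 0) (hy : ke B b y = 0) : ki (smashSet A B) (ex ha hb x y) =
      kp ContinuousMap.fst (ki A x) * kp ContinuousMap.snd (ki B y) := by
  have h : KM (smCR ha hb).inc.toRingHom (ex ha hb x y) =
      KM (pdCR (A := A) (B := B) a b).i1.toRingHom x *
        KM (pdCR (A := A) (B := B) a b).i2.toRingHom y :=
    (smCR ha hb).inc_ext (x := x) (y := y) hx hy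
  have h2 := congrArg (KM (A := PA A B) (B := C(X × Y, ℂ)) (PA A B).val.toRingHom) h
  rw [map_mul] at h2
  have e0 : KM (A := PA A B) (B := C(X × Y, ℂ)) (PA A B).val.toRingHom
      (KM (smCR ha hb).inc.toRingHom (ex ha hb x y)) = ki (smashSet A B) (ex ha hb x y) := by
    unfold ki; exact KM_comp _ _ _ (by exact fun _ => rfl) _
  have e1 : KM (A := PA A B) (B := C(X × Y, ℂ)) (PA A B).val.toRingHom
      (KM (pdCR (A := A) (B := B) a b).i1.toRingHom x) = kp ContinuousMap.fst (ki A x) := by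
    unfold ki kp; exact KM_eq _ _ _ _ (by exact fun _ => rfl) x
  have e2 : KM (A := PA A B) (B := C(X × Y, ℂ)) (PA A B).val.toRingHom
      (KM (pdCR (A := A) (B := B) a b).i2.toRingHom y) = kp ContinuousMap.snd (ki B y) := by
    unfold ki kp; exact KM_eq _ _ _ _ (by exact fun _ => rfl) y
  rw [← e0, h2, e1, e2]

theorem ex_psi (p : ℕ) [Fact p.Prime] {a : X} (ha : a ∈ A) {b : Y} (hb : b ∈ B)
    {x : KC (CR X A)} {y : KC (CR Y B)} (hx : ke A a x = 0) (hy : ke B b y = 0) :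
    pC p (smashSet A B) (ex ha hb x y) = ex ha hb (pC p A x) (pC p B y) := by
  unfold pC ex
  exact psi_ext (smCR ha hb) p (x := x) (y := y) hx hy

theorem ex_smul {a : X} (ha : a ∈ A) {b : Y} (hb : b ∈ B)
    {x : KC (CR X A)} {y : KC (CR Y B)} (hx : ke A a x = 0) (hy : ke B b y = 0) (m n : ℤ) :
    ex ha hb (m • x) (n • y) = (m * n) • ex ha hb x y := by
  have h1 : ke B b (n • y) = 0 := by rw [map_zsmul, hy, smul_zero]
  have e1 : ex ha hb (m • x) (n • y) = m • ex ha hb x (n • y) :=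
    (smCR ha hb).ext_zsmul_left (x := x) (y := n • y) hx h1 m
  have e2 : ex ha hb x (n • y) = n • ex ha hb x y :=
    (smCR ha hb).ext_zsmul_right (x := x) (y := y) hx hy n
  rw [e1, e2, mul_smul]

variable {X' Y' : Type} [TopologicalSpace X'] [TopologicalSpace Y'] {A' : Set X'} {B' : Set Y'}

theorem mapsTo_sm {f : C(X', X)} (hf : MapsTo f A' A) {g : C(Y', Y)} (hg : MapsTo g B' B) :
    MapsTo (f.prodMap g) (smashSet A' B') (smashSet A B) :=
  fun _ h => h.imp (fun h => hf h) (fun h => hg h)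

/-- pull-back on the product algebras -/
def paMap (f : C(X', X)) (hf : MapsTo f A' A) (g : C(Y', Y)) (hg : MapsTo g B' B) :
    PA A B →ₐ[ℂ] PA A' B' :=
  ((ContinuousMap.compRightAlgHom ℂ ℂ (f.prodMap g)).comp (PA A B).val).codRestrict (PA A' B')
    fun F => ⟨fun y x hx x' hx' => F.2.1 (g y) _ (hf hx) _ (hf hx'),
      fun x y hy y' hy' => F.2.2 (f x) _ (hg hy) _ (hg hy')⟩

theorem ex_nat {a : X} (ha : a ∈ A) {b : Y} (hb : b ∈ B) {a' : X'} (ha' : a' ∈ A') {b' : Y'}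
    (hb' : b' ∈ B') (f : C(X', X)) (hf : MapsTo f A' A) (g : C(Y', Y)) (hg : MapsTo g B' B)
    {x : KC (CR X A)} {y : KC (CR Y B)} (hx : ke A a x = 0) (hy : ke B b y = 0) :
    kc (f.prodMap g) (mapsTo_sm hf hg) (ex ha hb x y) = ex ha' hb' (kc f hf x) (kc g hg y) :=
  map_ext (smCR ha hb) (smCR ha' hb') (CR.comap f hf).toRingHom (CR.comap g hg).toRingHom
    (paMap f hf g hg).toRingHom (CR.comap (f.prodMap g) (mapsTo_sm hf hg)).toRingHom
    (fun _ => rfl) (fun _ => rfl) (fun _ => rfl)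
    (fun s => s.2 _ (Or.inl (hf ha')) _ (Or.inl ha))
    (fun s => s.2 _ (hf ha') _ ha) (fun s => s.2 _ (hg hb') _ hb) (x := x) (y := y) hx hy

end names

end Crest.Agent.N218.Hf
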