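import Crest.Agent.N218.Hf.Core

/-!
# Row 218, block D3, leaf HOPF (helper39): spheres
-/

set_option autoImplicit false
set_option linter.unusedVariables false
set_option linter.unusedSectionVars false

open scoped unitInterval Topology
open Set Function OnePoint Metric Filter Module

noncomputable section

namespace Crest.Agent.N218.Hf

open Crest.Agent.R204 H472 Ex837 ExM515 HMain515

theorem kz_odd {n : ℕ} (hn : Odd n) {Y : Type} [TopologicalSpace Y] [T2Space Y] {y : Y}
    (c : Collapse (Fin n) Y y) (x : KC C(Y, ℂ)) (hx : ∀ p, kv p x = 0) : x = 0 := by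
  have hb := KM_bij (R := C(Y, ℂ)) (S := SA (Fin n)) (c.equiv : C(Y, ℂ) →+* SA (Fin n))
    c.equiv.bijective
  apply hb.1
  rw [map_zero]
  refine Bt837.kodd n hn _ ?_
  refine Eq.trans ?_ (hx (c.p fun _ => 0))
  unfold kv
  exact KM_comp _ _ _ (by exact fun _ => rfl) x

/-- one-point compactifications are collapsed cubes -/
theorem coll_op (n : ℕ) (E : Type) [NormedAddCommGroup E] [NormedSpace ℝ E]
    [FiniteDimensional ℝ E] (h : finrank ℝ E = n + 1) :
    Nonempty (Collapse (Fin (n + 1)) (OnePoint E) ∞) := by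
  let φ : OnePoint E ≃ₜ Freu297.Sph (n + 1) := onePointEquivSphereOfFinrankEq (by simp [h])
  let a : EuclideanSpace ℝ (Fin (n + 1 + 1)) := (Freu297.pt (n + 1)).1
  let b : EuclideanSpace ℝ (Fin (n + 1 + 1)) := (φ ∞).1
  have hab : ‖a‖ = ‖b‖ := by
    rw [norm_eq_of_mem_sphere (Freu297.pt (n + 1)), norm_eq_of_mem_sphere (φ ∞)]
  let R := (ℝ ∙ (a - b))ᗮ.reflection
  have hR : R a = b := Submodule.reflection_sub hab
  let r : C(Freu297.Sph (n + 1), Freu297.Sph (n + 1)) :=
    ⟨fun s => ⟨R s.1, by simp [norm_eq_of_mem_sphere s]⟩, by fun_prop⟩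
  have hr : Bijective r := ⟨fun s t e => Subtype.ext (R.injective (congrArg Subtype.val e)),
    fun s => ⟨⟨R.symm s.1, by simp [norm_eq_of_mem_sphere s]⟩,
      Subtype.ext (R.apply_symm_apply _)⟩⟩
  let k : C(Freu297.Sph (n + 1), OnePoint E) := (⟨φ.symm, φ.symm.continuous⟩ : C(_, _)).comp r
  have hk : k (Freu297.pt (n + 1)) = ∞ := by
    change φ.symm (r _) = ∞
    rw [show r (Freu297.pt (n + 1)) = φ ∞ from Subtype.ext hR, φ.symm_apply_apply]
  exact ⟨hk ▸ collMap (HopfGlue339.coll (HDeg160.sphCube n)) k (φ.symm.bijective.comp hr)⟩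

/-- odd spheres of normed spaces -/
theorem kz_sphere (n : ℕ) (hn : Odd (n + 1)) (V : Type) [NormedAddCommGroup V] [NormedSpace ℝ V]
    [FiniteDimensional ℝ V] (h : finrank ℝ V = n + 1 + 1) (x : KC C(sphere (0 : V) 1, ℂ))
    (hx : ∀ p, kv p x = 0) : x = 0 := by
  let L : EuclideanSpace ℝ (Fin (n + 1 + 1)) ≃L[ℝ] V :=
    ContinuousLinearEquiv.ofFinrankEq (by simp [h])
  have h1 : ∀ s : Freu297.Sph (n + 1), L s.1 ≠ 0 := fun s e =>
    ne_zero_of_mem_unit_sphere s (L.injective (e.trans (map_zero L).symm))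
  have h2 : ∀ s : sphere (0 : V) 1, L.symm s.1 ≠ 0 := fun s e =>
    ne_zero_of_mem_unit_sphere s (L.symm.injective (e.trans (map_zero L.symm).symm))
  let r : C(Freu297.Sph (n + 1), sphere (0 : V) 1) :=
    ⟨fun s => ⟨‖L s.1‖⁻¹ • L s.1, by simp [norm_smul, h1 s]⟩,
      by
        refine Continuous.subtype_mk ?_ _
        exact Continuous.smul (Continuous.inv₀ (by fun_prop)
          fun s => norm_ne_zero_iff.2 (h1 s)) (by fun_prop)⟩
  let r' : C(sphere (0 : V) 1, Freu297.Sph (n + 1)) :=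
    ⟨fun s => ⟨‖L.symm s.1‖⁻¹ • L.symm s.1, by simp [norm_smul, h2 s]⟩,
      by
        refine Continuous.subtype_mk ?_ _
        exact Continuous.smul (Continuous.inv₀ (by fun_prop)
          fun s => norm_ne_zero_iff.2 (h2 s)) (by fun_prop)⟩
  have e : ∀ s, r (r' s) = s := fun s => Subtype.ext (by
    change ‖L (‖L.symm s.1‖⁻¹ • L.symm s.1)‖⁻¹ • L (‖L.symm s.1‖⁻¹ • L.symm s.1) = s.1
    have := norm_ne_zero_iff.2 (h2 s)
    rw [_root_.map_smul, L.apply_symm_apply, norm_smul, norm_eq_of_mem_sphere s, smul_smul]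
    simp [this])
  have h0 : kp r x = 0 := kz_odd hn (HopfGlue339.coll (HDeg160.sphCube n)) _
    fun p => (kv_kp r p x).trans (hx _)
  rw [← kp_id (.id _) (fun _ => rfl) x, ← kp_kp r' r (.id _) e, h0, map_zero]

open Classical in
/-- division with values in the compactification -/
def dv {W : Type} [NormedAddCommGroup W] [NormedSpace ℝ W] (g : ℝ) (u : W) : OnePoint W :=
  if g = 0 then ∞ else ((g⁻¹ • u : W) : OnePoint W)

theorem dv_zero {W : Type} [NormedAddCommGroup W] [NormedSpace ℝ W] (u : W) : dv 0 u = ∞ :=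
  if_pos rfl

theorem dv_ne {W : Type} [NormedAddCommGroup W] [NormedSpace ℝ W] {g : ℝ} (h : g ≠ 0) (u : W) :
    dv g u = ((g⁻¹ • u : W) : OnePoint W) := if_neg h

theorem cont_dv {X W : Type} [TopologicalSpace X] [NormedAddCommGroup W] [NormedSpace ℝ W]
    {u : X → W} {g : X → ℝ} (hu : Continuous u) (hg : Continuous g)
    (h0 : ∀ x, g x = 0 → u x ≠ 0) : Continuous fun x => dv (g x) (u x) := by
  rw [continuous_iff_continuousAt]
  intro x
  by_cases hx : g x = 0
  · change Tendsto _ _ (𝓝 (dv (g x) (u x)))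
    rw [hx, dv_zero, hasBasis_nhds_infty.tendsto_right_iff]
    rintro K ⟨-, hK⟩
    obtain ⟨R, hR⟩ := hK.isBounded.exists_norm_le
    have : ∀ᶠ z in 𝓝 x, |g z| * R < ‖u z‖ :=
      (ContinuousAt.eventually_lt (by fun_prop) (by fun_prop)
        (by rw [hx, abs_zero, zero_mul]; exact norm_pos_iff.2 (h0 x hx)))
    filter_upwards [this] with z hz
    by_cases h : g z = 0
    · rw [h, dv_zero]; exact .inr rfl
    · rw [dv_ne h]
      refine .inl ⟨_, fun k => ?_, rfl⟩
      have h1 := hR _ k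
      rw [norm_smul, norm_inv, Real.norm_eq_abs, inv_mul_le_iff₀ (abs_pos.2 h)] at h1
      linarith
  · have h1 : ∀ᶠ z in 𝓝 x, g z ≠ 0 := hg.continuousAt.eventually_ne hx
    refine ContinuousAt.congr (f := fun z => (((g z)⁻¹ • u z : W) : OnePoint W)) ?_ ?_
    · exact continuous_coe.continuousAt.comp ((hg.continuousAt.inv₀ hx).smul hu.continuousAt)
    · filter_upwards [h1] with z hz
      rw [dv_ne hz]

end Crest.Agent.N218.Hf
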