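import Crest.Agent.N218.Hf.Sp

/-!
# Row 218, block D3, leaf HOPF (helper39): the projective plane of a normed multiplication
-/

set_option autoImplicit false
set_option linter.unusedVariables false
set_option linter.unusedSectionVars false

open scoped unitInterval Topology
open Set Function OnePoint Metric Filter Module

noncomputable section

namespace Crest.Agent.N218.Hf

open Crest.Agent.R204 H472 Ex837 ExM515 HMain515

variable {E : Type} [NormedAddCommGroup E] [NormedSpace ℝ E]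

/-- the disc -/
abbrev DD (E : Type) [NormedAddCommGroup E] : Type := closedBall (0 : E) 1

theorem DD.le (x : DD E) : ‖x.1‖ ≤ 1 := mem_closedBall_zero_iff.1 x.2

/-- the model map -/
def qq (m : E →L[ℝ] E →L[ℝ] E) (x y : E) : (E × E) × ℝ × ℝ × E :=
  ((1 - max ‖x‖ ‖y‖) • (x, y), max ‖x‖ ‖y‖, ‖y‖ - ‖x‖, m y x)

/-- the projective plane -/
def TP (m : E →L[ℝ] E →L[ℝ] E) : Type := range fun p : DD E × DD E => qq m p.1.1 p.2.1

variable (m : E →L[ℝ] E →L[ℝ] E)

theorem cont_qq : Continuous fun p : E × E => qq m p.1 p.2 := by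
  unfold qq
  fun_prop

instance : TopologicalSpace (TP m) := inferInstanceAs (TopologicalSpace (range _))
instance : T2Space (TP m) := inferInstanceAs (T2Space (range _))
instance [ProperSpace E] : CompactSpace (TP m) :=
  isCompact_iff_compactSpace.1 (isCompact_range ((cont_qq m).comp
    (f := fun p : DD E × DD E => (p.1.1, p.2.1)) (by fun_prop)))

/-- the characteristic map -/
def QP : C(DD E × DD E, TP m) :=
  ⟨fun p => ⟨qq m p.1.1 p.2.1, p, rfl⟩, ((cont_qq m).comp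
    (f := fun p : DD E × DD E => (p.1.1, p.2.1)) (by fun_prop)).subtype_mk _⟩

theorem QP_surj : Surjective (QP m) := fun ⟨_, p, h⟩ => ⟨p, Subtype.ext h⟩

variable {m}

theorem qq_one {x y : E} (h : max ‖x‖ ‖y‖ = 1) : qq m x y = (0, 1, ‖y‖ - ‖x‖, m y x) := by
  rw [qq, h, sub_self, zero_smul]

variable (hm : ∀ s x, ‖m s x‖ = ‖s‖ * ‖x‖) {e : E} (he : ‖e‖ = 1)
include hm he

theorem inj_l {x x' : E} (h : m e x = m e x') : x = x' := by
  have := hm e (x - x')
  rw [map_sub, h, sub_self, norm_zero, he, one_mul] at this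
  exact sub_eq_zero.1 (norm_eq_zero.1 this.symm)

theorem inj_r {x x' : E} (h : m x e = m x' e) : x = x' := by
  have := hm (x - x') e
  rw [map_sub, sub_apply, h, sub_self, norm_zero, he, mul_one] at this
  exact sub_eq_zero.1 (norm_eq_zero.1 this.symm)

variable [FiniteDimensional ℝ E]

theorem sur_l (w : E) : ∃ x, m e x = w ∧ ‖x‖ = ‖w‖ := by
  obtain ⟨x, hx⟩ := (LinearMap.injective_iff_surjective (f := (m e).toLinearMap)).1
    (fun _ _ h => inj_l hm he h) w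
  refine ⟨x, hx, ?_⟩
  rw [← hx]; change _ = ‖m e x‖; rw [hm, he, one_mul]

theorem sur_r (w : E) : ∃ x, m x e = w ∧ ‖x‖ = ‖w‖ := by
  obtain ⟨x, hx⟩ := (LinearMap.injective_iff_surjective (f := (m.flip e).toLinearMap)).1
    (fun _ _ h => inj_r hm he h) w
  refine ⟨x, hx, ?_⟩
  rw [← hx]; change _ = ‖m x e‖; rw [hm, he, mul_one]

theorem ex_p {t : ℝ} {w : E} (ht : 0 ≤ t) (h : t + ‖w‖ = 1) :
    ∃ x : DD E, qq m x.1 e = (0, 1, t, w) := by
  obtain ⟨x, hx, hn⟩ := sur_l hm he w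
  refine ⟨⟨x, mem_closedBall_zero_iff.2 (by linarith)⟩, ?_⟩
  rw [qq_one (by rw [he]; exact max_eq_right (by change ‖x‖ ≤ 1; linarith)), he, hx]
  change (_, _, 1 - ‖x‖, _) = _
  rw [show 1 - ‖x‖ = t by linarith]

theorem ex_m {t : ℝ} {w : E} (ht : t ≤ 0) (h : -t + ‖w‖ = 1) :
    ∃ x : DD E, qq m e x.1 = (0, 1, t, w) := by
  obtain ⟨x, hx, hn⟩ := sur_r hm he w
  refine ⟨⟨x, mem_closedBall_zero_iff.2 (by linarith)⟩, ?_⟩
  rw [qq_one (by rw [he]; exact max_eq_left (by change ‖x‖ ≤ 1; linarith)), he, hx]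
  change (_, _, ‖x‖ - 1, _) = _
  rw [show ‖x‖ - 1 = t by linarith]

theorem mem_TP {t : ℝ} {w : E} (h : |t| + ‖w‖ = 1) :
    ((0, 1, t, w) : (E × E) × ℝ × ℝ × E) ∈ range fun p : DD E × DD E => qq m p.1.1 p.2.1 := by
  have he' : e ∈ closedBall (0 : E) 1 := mem_closedBall_zero_iff.2 he.le
  rcases le_total 0 t with ht | ht
  · obtain ⟨x, hx⟩ := ex_p hm he ht (by rwa [abs_of_nonneg ht] at h)
    exact ⟨(x, ⟨e, he'⟩), hx⟩
  · obtain ⟨x, hx⟩ := ex_m hm he ht (by rwa [abs_of_nonpos ht] at h)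
    exact ⟨(⟨e, he'⟩, x), hx⟩

omit he [FiniteDimensional ℝ E] in
theorem shape (z : TP m) (h : z.1.2.1 = 1) :
    z.1 = (0, 1, z.1.2.2.1, z.1.2.2.2) ∧ |z.1.2.2.1| + ‖z.1.2.2.2‖ = 1 := by
  obtain ⟨_, ⟨x, y⟩, rfl⟩ := z
  change max ‖x.1‖ ‖y.1‖ = 1 at h
  refine ⟨qq_one h, ?_⟩
  change |‖y.1‖ - ‖x.1‖| + ‖m y.1 x.1‖ = 1
  rw [hm]
  rcases le_total ‖x.1‖ ‖y.1‖ with k | k
  · rw [max_eq_right k] at h
    rw [abs_of_nonneg (sub_nonneg.2 k), h]; ring
  · rw [max_eq_left k] at h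
    rw [abs_of_nonpos (sub_nonpos.2 k), h]; ring

omit hm he [FiniteDimensional ℝ E] in
theorem jv_norm (v : E) : |(1 - ‖v‖) / max 1 ‖v‖| + ‖((max 1 ‖v‖) ^ 2)⁻¹ • v‖ = 1 := by
  rcases le_total ‖v‖ 1 with k | k
  · rw [max_eq_left k, div_one, abs_of_nonneg (sub_nonneg.2 k)]; simp
  · have : 0 < ‖v‖ := by linarith
    rw [max_eq_right k, abs_div, abs_of_nonpos (sub_nonpos.2 k), abs_of_pos this, norm_smul,
      norm_inv, norm_pow, norm_norm]
    field_simp
    ring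

/-- the line at infinity -/
def jP : C(OnePoint E, TP m) :=
  OnePoint.continuousMapMk
    ⟨fun v => ⟨(0, 1, (1 - ‖v‖) / max 1 ‖v‖, ((max 1 ‖v‖) ^ 2)⁻¹ • v), mem_TP hm he (jv_norm v)⟩,
      by
        refine Continuous.subtype_mk ?_ _
        exact continuous_const.prodMk (continuous_const.prodMk
          ((Continuous.div (by fun_prop) (by fun_prop) fun v => by positivity).prodMk
          ((Continuous.inv₀ (by fun_prop) fun v => by positivity).smul continuous_id)))⟩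
    ⟨(0, 1, -1, 0), mem_TP hm he (by simp)⟩ (by
      have : ProperSpace E := FiniteDimensional.proper_real E
      rw [coclosedCompact_eq_cocompact]
      refine tendsto_subtype_rng.2 (tendsto_const_nhds.prodMk_nhds (tendsto_const_nhds.prodMk_nhds
        (Tendsto.prodMk_nhds ?_ ?_)))
      · have h1 : Tendsto (fun v : E => ‖v‖⁻¹ - 1) (cocompact E) (𝓝 (0 - 1)) :=
          (tendsto_norm_cocompact_atTop (E := E)).inv_tendsto_atTop.sub_const 1
        rw [zero_sub] at h1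
        refine h1.congr' ?_
        filter_upwards [(tendsto_norm_cocompact_atTop (E := E)).eventually_ge_atTop 1] with v hv
        have : 0 < ‖v‖ := by linarith
        change _ = (1 - ‖v‖) / max 1 ‖v‖
        rw [max_eq_right hv]; field_simp
      · rw [tendsto_zero_iff_norm_tendsto_zero]
        refine (tendsto_norm_cocompact_atTop (E := E)).inv_tendsto_atTop.congr' ?_
        filter_upwards [(tendsto_norm_cocompact_atTop (E := E)).eventually_ge_atTop 1] with v hv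
        have : 0 < ‖v‖ := by linarith
        change ‖v‖⁻¹ = ‖((max 1 ‖v‖) ^ 2)⁻¹ • v‖
        rw [max_eq_right hv, norm_smul, norm_inv, norm_pow, norm_norm]; field_simp)

theorem jP_coe (v : E) : (jP hm he v).1 =
    (0, 1, (1 - ‖v‖) / max 1 ‖v‖, ((max 1 ‖v‖) ^ 2)⁻¹ • v) := rfl

theorem jP_inf : (jP hm he ∞).1 = (0, 1, -1, 0) := rfl

omit hm he [FiniteDimensional ℝ E] in
theorem jv_min (v : E) : min 1 (1 + (1 - ‖v‖) / max 1 ‖v‖) = (max 1 ‖v‖)⁻¹ := by
  rcases le_total ‖v‖ 1 with k | k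
  · rw [max_eq_left k, div_one, min_eq_left (by linarith), inv_one]
  · have : 0 < ‖v‖ := by linarith
    have e : 1 + (1 - ‖v‖) / ‖v‖ = ‖v‖⁻¹ := by field_simp; ring
    rw [max_eq_right k, e, min_eq_right (inv_le_one_of_one_le₀ k)]

theorem jP_inj : Injective (jP hm he) := by
  have key : ∀ a, dv ((min 1 (1 + (jP hm he a).1.2.2.1)) ^ 2) (jP hm he a).1.2.2.2 = a := by
    intro a
    induction a using OnePoint.rec with
    | infty => rw [jP_inf]; simp [dv_zero]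
    | coe v =>
      rw [jP_coe]
      have : 0 < max 1 ‖v‖ := by positivity
      dsimp only
      rw [jv_min, dv_ne (by positivity), smul_smul, inv_pow, inv_inv,
        mul_inv_cancel₀ (by positivity), one_smul]
  intro a b h
  rw [← key a, ← key b, h]

theorem jP_range : range (jP hm he) = {z | z.1.2.1 = 1} := by
  ext z
  constructor
  · rintro ⟨a, rfl⟩
    induction a using OnePoint.rec <;> rfl
  · intro hz
    obtain ⟨h1, h2⟩ := shape hm z hz
    generalize z.1.2.2.1 = t at h1 h2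
    generalize z.1.2.2.2 = w at h1 h2
    rcases le_total 0 t with ht | ht
    · rw [abs_of_nonneg ht] at h2
      refine ⟨w, Subtype.ext ?_⟩
      rw [jP_coe, h1, max_eq_left (by linarith), div_one, one_pow, inv_one, one_smul,
        show 1 - ‖w‖ = t by linarith]
    · rw [abs_of_nonpos ht] at h2
      by_cases hw : w = 0
      · refine ⟨∞, Subtype.ext ?_⟩
        rw [hw, norm_zero] at h2
        rw [jP_inf, h1, hw, show t = -1 by linarith]
      · have h0 : 0 < ‖w‖ := norm_pos_iff.2 hw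
        have hn : ‖(‖w‖ ^ 2)⁻¹ • w‖ = ‖w‖⁻¹ := by
          rw [norm_smul, norm_inv, norm_pow, norm_norm]; field_simp
        refine ⟨((‖w‖ ^ 2)⁻¹ • w : E), Subtype.ext ?_⟩
        rw [jP_coe, h1, hn, max_eq_right ((one_le_inv₀ h0).2 (by linarith)), smul_smul, inv_pow,
          inv_inv, mul_inv_cancel₀ (by positivity), one_smul,
          show (1 - ‖w‖⁻¹) / ‖w‖⁻¹ = t by field_simp; linarith]

/-- slopes -/
theorem QP_slope (x y : DD E) (h : max ‖x.1‖ ‖y.1‖ = 1) :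
    QP m (x, y) = jP hm he (dv (‖y.1‖ ^ 2) (m y.1 x.1)) := by
  apply Subtype.ext
  change qq m x.1 y.1 = _
  rw [qq_one h]
  by_cases hy : y.1 = 0
  · rw [hy, norm_zero, max_eq_left (norm_nonneg _)] at h
    rw [hy, norm_zero, h]; simp [dv_zero, jP_inf]
  · have h0 : 0 < ‖y.1‖ := norm_pos_iff.2 hy
    have hn : ‖(‖y.1‖ ^ 2)⁻¹ • m y.1 x.1‖ = ‖x.1‖ / ‖y.1‖ := by
      rw [norm_smul, norm_inv, norm_pow, norm_norm, hm]; field_simp
    rw [dv_ne (by positivity), jP_coe, hn, smul_smul]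
    rcases le_total ‖x.1‖ ‖y.1‖ with k | k
    · rw [max_eq_right k] at h
      rw [h] at k ⊢
      simp [max_eq_left k]
    · rw [max_eq_left k] at h
      rw [h] at k ⊢
      rw [max_eq_right ((one_le_div h0).2 k), show (1 - 1 / ‖y.1‖) / (1 / ‖y.1‖) = ‖y.1‖ - 1 by
        field_simp, show ((1 / ‖y.1‖) ^ 2)⁻¹ * (‖y.1‖ ^ 2)⁻¹ = 1 by field_simp, one_smul]

/-- the data -/
def hd [ProperSpace E] : HD (DD E) (TP m) (OnePoint E) ∞ where
  SD := {x | ‖x.1‖ = 1}
  cSD := isClosed_eq (by fun_prop) continuous_const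
  e := ⟨e, mem_closedBall_zero_iff.2 he.le⟩
  he := he
  C := ⟨fun p => ⟨(1 - p.1.1) • p.2.1 + p.1.1 • e, (convex_closedBall (0 : E) 1) p.2.2
    (mem_closedBall_zero_iff.2 he.le) (sub_nonneg.2 p.1.2.2) p.1.2.1 (by ring)⟩, by fun_prop⟩
  C0 x := Subtype.ext (by simp)
  C1 x := Subtype.ext (by simp)
  κ := ⟨fun x => dv (1 - ‖x.1‖) x.1, cont_dv (by fun_prop) (by fun_prop) fun x h k => by
    rw [k, norm_zero] at h; norm_num at h⟩
  κs a := by
    induction a using OnePoint.rec with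
    | infty => exact ⟨⟨e, mem_closedBall_zero_iff.2 he.le⟩, by simp [he, dv_zero]⟩
    | coe v =>
      have h0 : 0 < 1 + ‖v‖ := by positivity
      have hn : ‖(1 + ‖v‖)⁻¹ • v‖ = ‖v‖ / (1 + ‖v‖) := by
        rw [norm_smul, norm_inv, Real.norm_eq_abs, abs_of_pos h0]; field_simp
      have h1 : 1 - ‖v‖ / (1 + ‖v‖) = (1 + ‖v‖)⁻¹ := by field_simp; ring
      refine ⟨⟨(1 + ‖v‖)⁻¹ • v, mem_closedBall_zero_iff.2 ?_⟩, ?_⟩
      · rw [hn, div_le_one h0]; linarith
      · change dv (1 - ‖(1 + ‖v‖)⁻¹ • v‖) ((1 + ‖v‖)⁻¹ • v) = _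
        rw [hn, h1, dv_ne (by positivity), smul_smul, inv_inv, mul_inv_cancel₀ h0.ne', one_smul]
  κy x := by
    change dv (1 - ‖x.1‖) x.1 = ∞ ↔ ‖x.1‖ = 1
    by_cases h : 1 - ‖x.1‖ = 0
    · rw [h, dv_zero]; exact ⟨fun _ => by linarith, fun _ => rfl⟩
    · rw [dv_ne h]; exact ⟨fun k => absurd k (coe_ne_infty _), fun k => absurd (by linarith) h⟩
  κf x z h := by
    change dv (1 - ‖x.1‖) x.1 = dv (1 - ‖z.1‖) z.1 at h
    by_cases hx : 1 - ‖x.1‖ = 0 <;> by_cases hz : 1 - ‖z.1‖ = 0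
    · exact .inr ⟨show ‖x.1‖ = 1 by linarith, show ‖z.1‖ = 1 by linarith⟩
    · rw [hx, dv_zero, dv_ne hz] at h; exact absurd h (infty_ne_coe _)
    · rw [hz, dv_zero, dv_ne hx] at h; exact absurd h (coe_ne_infty _)
    · rw [dv_ne hx, dv_ne hz, coe_eq_coe] at h
      have h1 : 0 < 1 - ‖x.1‖ := lt_of_le_of_ne (sub_nonneg.2 (DD.le x)) (Ne.symm hx)
      have h2 : 0 < 1 - ‖z.1‖ := lt_of_le_of_ne (sub_nonneg.2 (DD.le z)) (Ne.symm hz)
      have h3 := congrArg norm h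
      rw [norm_smul, norm_smul, norm_inv, norm_inv, Real.norm_eq_abs, Real.norm_eq_abs,
        abs_of_pos h1, abs_of_pos h2] at h3
      have h4 : ‖x.1‖ = ‖z.1‖ := by field_simp at h3; linarith
      rw [h4] at h
      exact .inl (Subtype.ext (smul_right_injective E (inv_ne_zero hz) h))
  Q := QP m
  Qs := QP_surj m
  S := {z | z.1.2.1 = 1}
  Bm := {z | z.1.2.1 = 1 ∧ z.1.2.2.1 ≤ 0}
  Bp := {z | z.1.2.1 = 1 ∧ 0 ≤ z.1.2.2.1}
  cm := (isClosed_eq (continuous_subtype_val.snd.fst) continuous_const).inter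
    (isClosed_le (continuous_subtype_val.snd.snd.fst) continuous_const)
  cp := (isClosed_eq (continuous_subtype_val.snd.fst) continuous_const).inter
    (isClosed_le continuous_const (continuous_subtype_val.snd.snd.fst))
  hS := Set.ext fun z => ⟨fun h => (le_total z.1.2.2.1 0).imp (fun k => ⟨h, k⟩) fun k => ⟨h, k⟩,
    fun h => h.elim (fun k => k.1) fun k => k.1⟩
  QS p h := by
    change max ‖p.1.1‖ ‖p.2.1‖ = 1 at h
    rcases max_choice ‖p.1.1‖ ‖p.2.1‖ with k | k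
    · exact .inl (k.symm.trans h)
    · exact .inr (k.symm.trans h)
  Qf p q h := by
    have h1 : max ‖p.1.1‖ ‖p.2.1‖ = max ‖q.1.1‖ ‖q.2.1‖ := congrArg (fun z : TP m => z.1.2.1) h
    have h2 : (1 - max ‖p.1.1‖ ‖p.2.1‖) • (p.1.1, p.2.1) =
        (1 - max ‖q.1.1‖ ‖q.2.1‖) • (q.1.1, q.2.1) := congrArg (fun z : TP m => z.1.1) h
    by_cases k : max ‖p.1.1‖ ‖p.2.1‖ = 1
    · refine .inr ⟨?_, ?_⟩
      · rcases max_choice ‖p.1.1‖ ‖p.2.1‖ with l | l
        · exact .inl (l.symm.trans k)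
        · exact .inr (l.symm.trans k)
      · rcases max_choice ‖q.1.1‖ ‖q.2.1‖ with l | l
        · exact .inl (l.symm.trans (h1.symm.trans k))
        · exact .inr (l.symm.trans (h1.symm.trans k))
    · rw [← h1] at h2
      have h3 := smul_right_injective (E × E) (sub_ne_zero.2 (Ne.symm k)) h2
      exact .inl (Prod.ext (Subtype.ext (congrArg Prod.fst h3))
        (Subtype.ext (congrArg Prod.snd h3)))
  Qm x hx z := ⟨(max_eq_left (hx.symm ▸ DD.le z)).trans hx,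
    show ‖z.1‖ - ‖x.1‖ ≤ 0 from sub_nonpos.2 (hx.symm ▸ DD.le z)⟩
  Qp x z hz := ⟨(max_eq_right (hz.symm ▸ DD.le x)).trans hz,
    show 0 ≤ ‖z.1‖ - ‖x.1‖ from sub_nonneg.2 (hz.symm ▸ DD.le x)⟩
  i1 x x' h := Subtype.ext (inj_l hm he (congrArg (fun z : TP m => z.1.2.2.2) h))
  r1 z hz := by
    obtain ⟨h1, h2⟩ := shape hm z hz.1
    obtain ⟨x, hx⟩ := ex_p hm he hz.2 (by rwa [abs_of_nonneg hz.2] at h2)
    exact ⟨x, Subtype.ext (hx.trans h1.symm)⟩
  m1 x h := by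
    have h1 : ‖e‖ - ‖x.1‖ ≤ 0 := h.2
    exact le_antisymm (DD.le x) (by linarith)
  i2 x x' h := Subtype.ext (inj_r hm he (congrArg (fun z : TP m => z.1.2.2.2) h))
  r2 z hz := by
    obtain ⟨h1, h2⟩ := shape hm z hz.1
    obtain ⟨x, hx⟩ := ex_m hm he hz.2 (by rwa [abs_of_nonpos hz.2] at h2)
    exact ⟨x, Subtype.ext (hx.trans h1.symm)⟩
  m2 x h := by
    have h1 : 0 ≤ ‖x.1‖ - ‖e‖ := h.2
    exact le_antisymm (DD.le x) (by linarith)
  j := jP hm he
  ji := jP_inj hm he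
  jr := jP_range hm he

/-- **the projective plane has odd `ψ³`-defect** -/
theorem plane [ProperSpace E] (h8 : finrank ℝ E = 8) {b : KC C(OnePoint E, ℂ)}
    (hb : Gn (kv ∞) b) :
    ∃ (ξ : KC C(TP m, ℂ)) (η : KC (CR (TP m) {z | z.1.2.1 = 1})) (μ : ℤ), Odd μ ∧
      kp (jP hm he) ξ = b ∧ (∀ t, kv t ξ = 0) ∧ Gn (ke _ (jP hm he ∞)) η ∧
      pX 3 (TP m) ξ = (81 : ℤ) • ξ + μ • ki _ η := by
  obtain ⟨c⟩ := coll_op 7 E h8
  refine (hd hm he).core c (fun x hx => ?_) hb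
  let k : C(smashSet (hd hm he).SD (hd hm he).SD, sphere (0 : E × E) 1) :=
    ⟨fun p => ⟨(p.1.1.1, p.1.2.1), by
      rw [mem_sphere_zero_iff_norm, Prod.norm_def]
      rcases p.2 with h | h
      · exact (max_eq_left (h.symm ▸ DD.le p.1.2)).trans h
      · exact (max_eq_right (h.symm ▸ DD.le p.1.1)).trans h⟩, by fun_prop⟩
  have hk : Bijective k := by
    refine ⟨fun p q h => Subtype.ext (Prod.ext
      (Subtype.ext (congrArg (fun z : sphere (0 : E × E) 1 => z.1.1) h))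
      (Subtype.ext (congrArg (fun z : sphere (0 : E × E) 1 => z.1.2) h))), fun s => ?_⟩
    have h := mem_sphere_zero_iff_norm.1 s.2
    rw [Prod.norm_def] at h
    refine ⟨⟨(⟨s.1.1, mem_closedBall_zero_iff.2 ((le_max_left _ _).trans h.le)⟩,
      ⟨s.1.2, mem_closedBall_zero_iff.2 ((le_max_right _ _).trans h.le)⟩), ?_⟩, rfl⟩
    rcases max_choice ‖s.1.1‖ ‖s.1.2‖ with l | l
    · exact .inl (l.symm.trans h)
    · exact .inr (l.symm.trans h)
  have : CompactSpace (smashSet (hd hm he).SD (hd hm he).SD) :=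
    isCompact_iff_compactSpace.1 (hd hm he).cbd.isCompact
  obtain ⟨x', rfl⟩ := (kp_bij k hk).2 x
  rw [kz_sphere 14 (by decide) (E × E) (by simp [h8]) x' fun p => ?_, map_zero]
  obtain ⟨p, rfl⟩ := hk.2 p
  exact (kv_kp k p x').symm.trans (hx p)

end Crest.Agent.N218.Hf
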